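import Vale.Agent.P186.Hy.Thin

/-!
# P172V, part B: the interface of B1 + B3 (helper22)

A *graph system* is a family of labelled graphs (the objects).  All graphs live on one finite type of
positions (edges) `P` and one type of vertices `Vx`; the object `o` uses the positions with `ok o p`.
The group is presented by the labels of all closed walks of all objects.
`Loc` is the local inequality (B2), `StmtB13` is the statement B1 + B3.
-/

namespace Vale.Agent.P172V.VK

open Finset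

/-- a family of labelled graphs -/
structure GS (A : Type) where
  O : Type
  P : Type
  Vx : Type
  [fP : Fintype P]
  [dP : DecidableEq P]
  [dV : DecidableEq Vx]
  src : P → Vx
  tgt : P → Vx
  ok : O → P → Prop
  lab : O → P → A

attribute [instance] GS.fP GS.dP GS.dV

namespace GS

variable {A : Type} (Γ : GS A)

/-- origin of a dart; `(p, true)` goes from `src p` to `tgt p` -/
def po (x : Γ.P × Bool) : Γ.Vx := if x.2 then Γ.src x.1 else Γ.tgt x.1

/-- `l` is a walk from `u` to `v` -/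
def IsWk : Γ.Vx → List (Γ.P × Bool) → Γ.Vx → Prop
  | u, [], v => u = v
  | u, x :: l, v => Γ.po x = u ∧ IsWk (Γ.po (x.1, !x.2)) l v

/-- closed walk in the object `o` -/
def IsCW (o : Γ.O) (l : List (Γ.P × Bool)) : Prop :=
  (∀ x ∈ l, Γ.ok o x.1) ∧ ∃ v, Γ.IsWk v l v

/-- label of a walk -/
def word (o : Γ.O) (l : List (Γ.P × Bool)) : List (A × Bool) := l.map fun x => (Γ.lab o x.1, x.2)

/-- the relators: labels of closed walks -/
def rels : Set (FreeGroup A) := {u | ∃ o l, Γ.IsCW o l ∧ u = FreeGroup.mk (Γ.word o l)}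

/-- the group -/
abbrev Gp : Type := PresentedGroup Γ.rels

/-- degree of a vertex in a set of positions -/
def deg (Z : Finset Γ.P) (v : Γ.Vx) : ℕ :=
  (Z.filter fun p => Γ.src p = v).card + (Z.filter fun p => Γ.tgt p = v).card

/-- `Z` is a nonempty set of positions of `o` all of whose degrees are `0` or `2` -/
def Cyc (o : Γ.O) (Z : Finset Γ.P) : Prop :=
  Z.Nonempty ∧ (∀ p ∈ Z, Γ.ok o p) ∧ ∀ v, Γ.deg Z v = 0 ∨ Γ.deg Z v = 2

open Classical in
/-- the local inequality (B2).  Faces `f : F` with object `ob f` and cycle `Z f`; the sides are the pairs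
`(f, p)`, `p ∈ Z f`; `μ` is the matching (unmatched: `μ x = x`). -/
def Loc (sp : A → Prop) (K D : ℕ) : Prop :=
  ∀ (F : Type) [Fintype F] [DecidableEq F] (ob : F → Γ.O) (Z : F → Finset Γ.P)
    (μ : F × Γ.P → F × Γ.P),
    (∀ f, Γ.Cyc (ob f) (Z f)) → (∀ x, μ (μ x) = x) →
    (∀ x, μ x ≠ x → x.2 ∈ Z x.1 ∧ Γ.lab (ob x.1) x.2 = Γ.lab (ob (μ x).1) (μ x).2 ∧
      (ob x.1, x.2) ≠ (ob (μ x).1, (μ x).2)) →
    Fintype.card F ≤ K →
    Fintype.card F ≤ D * (univ.filter fun x : F × Γ.P =>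
      x.2 ∈ Z x.1 ∧ μ x = x ∧ ¬ sp (Γ.lab (ob x.1) x.2)).card

end GS

/-- B1 + B3: the local inequality up to a size `K = K(m, D)` gives hyperbolicity, and two different
special letters `a, b` give an element `a b⁻¹` of infinite order. -/
def StmtB13 : Prop :=
  ∀ m D : ℕ, ∃ K : ℕ, ∀ (A : Type) [Finite A] (Γ : GS A) (sp : A → Prop),
    Fintype.card Γ.P ≤ m → Γ.Loc sp K D →
    Vale.Agent.P186.Hy.IsHyperbolic Γ.Gp ∧
    ∀ a b : A, sp a → sp b → a ≠ b →
      ¬ IsOfFinOrder ((PresentedGroup.of a : Γ.Gp) * (PresentedGroup.of b)⁻¹)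

namespace GS

variable {A : Type} {Γ : GS A}

/-- the label of a closed walk is trivial in the group -/
theorem cw_one {o : Γ.O} {l : List (Γ.P × Bool)} (h : Γ.IsCW o l) :
    PresentedGroup.mk Γ.rels (FreeGroup.mk (Γ.word o l)) = 1 :=
  PresentedGroup.one_of_mem ⟨o, l, h, rfl⟩

theorem isWk_append {u v : Γ.Vx} {l m : List (Γ.P × Bool)} :
    Γ.IsWk u (l ++ m) v ↔ ∃ w, Γ.IsWk u l w ∧ Γ.IsWk w m v := by
  induction l generalizing u with
  | nil => simp only [List.nil_append, IsWk, exists_eq_left']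
  | cons a l ih =>
    simp only [List.cons_append, IsWk, ih]
    constructor
    · rintro ⟨h1, w, h2, h3⟩
      exact ⟨w, ⟨h1, h2⟩, h3⟩
    · rintro ⟨w, ⟨h1, h2⟩, h3⟩
      exact ⟨h1, w, h2, h3⟩

theorem isWk_invRev {u v : Γ.Vx} {l : List (Γ.P × Bool)} (h : Γ.IsWk u l v) :
    Γ.IsWk v (FreeGroup.invRev l) u := by
  induction l generalizing u with
  | nil => exact Eq.symm h
  | cons a l ih =>
    obtain ⟨h1, h2⟩ := h
    rw [FreeGroup.invRev_cons, isWk_append]
    refine ⟨_, ih h2, ?_⟩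
    have e : FreeGroup.invRev [a] = [(a.1, !a.2)] := rfl
    rw [e]
    refine ⟨rfl, ?_⟩
    show Γ.po (a.1, !!a.2) = u
    rw [Bool.not_not]
    exact h1

theorem word_append (o : Γ.O) (l m : List (Γ.P × Bool)) :
    Γ.word o (l ++ m) = Γ.word o l ++ Γ.word o m := List.map_append

theorem word_invRev (o : Γ.O) (l : List (Γ.P × Bool)) :
    Γ.word o (FreeGroup.invRev l) = FreeGroup.invRev (Γ.word o l) := by
  simp only [word, FreeGroup.invRev, List.map_reverse, List.map_map]
  rfl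

theorem mem_invRev {B : Type} {l : List (B × Bool)} {x : B × Bool} (h : x ∈ FreeGroup.invRev l) :
    (x.1, !x.2) ∈ l := by
  simp only [FreeGroup.invRev, List.mem_reverse, List.mem_map] at h
  obtain ⟨y, hy, rfl⟩ := h
  simpa using hy

/-- group potentials on an object: `g (src p) * label = g (tgt p)` -/
theorem exists_pot (o : Γ.O) : ∃ g : Γ.Vx → Γ.Gp, ∀ p, Γ.ok o p →
    g (Γ.src p) * PresentedGroup.of (Γ.lab o p) = g (Γ.tgt p) := by
  classical
  rcases isEmpty_or_nonempty Γ.Vx with hV | ⟨⟨v0⟩⟩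
  · exact ⟨fun _ => 1, fun p _ => hV.elim (Γ.src p)⟩
  let R : Γ.Vx → Γ.Vx → Prop := fun u v => ∃ l, (∀ x ∈ l, Γ.ok o x.1) ∧ Γ.IsWk u l v
  have hrefl : ∀ u, R u u := fun u => ⟨[], by simp, rfl⟩
  have hsymm : ∀ u v, R u v → R v u := by
    rintro u v ⟨l, h1, h2⟩
    exact ⟨_, fun x hx => h1 (x.1, !x.2) (mem_invRev hx), isWk_invRev h2⟩
  have htrans : ∀ u v w, R u v → R v w → R u w := by
    rintro u v w ⟨l, h1, h2⟩ ⟨m, h3, h4⟩
    refine ⟨l ++ m, fun x hx => ?_, isWk_append.2 ⟨v, h2, h4⟩⟩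
    rcases List.mem_append.1 hx with hx | hx
    · exact h1 x hx
    · exact h3 x hx
  have : Nonempty Γ.Vx := ⟨v0⟩
  let b : Γ.Vx → Γ.Vx := fun v => Classical.epsilon (fun u => R u v)
  have hb : ∀ v, R (b v) v := fun v => Classical.epsilon_spec (p := fun u => R u v) ⟨v, hrefl v⟩
  have hbe : ∀ u v, R u v → b u = b v := by
    intro u v h
    have : (fun w => R w u) = fun w => R w v := by
      funext w
      exact propext ⟨fun h' => htrans _ _ _ h' h, fun h' => htrans _ _ _ h' (hsymm _ _ h)⟩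
    simp only [b, this]
  choose L hL1 hL2 using hb
  refine ⟨fun v => PresentedGroup.mk Γ.rels (FreeGroup.mk (Γ.word o (L v))), fun p hp => ?_⟩
  have hR : R (Γ.src p) (Γ.tgt p) := ⟨[(p, true)], by simpa using hp, rfl, rfl⟩
  have hc : Γ.IsCW o (L (Γ.src p) ++ ([(p, true)] ++ FreeGroup.invRev (L (Γ.tgt p)))) := by
    refine ⟨fun x hx => ?_, b (Γ.src p), isWk_append.2 ⟨_, hL2 _, isWk_append.2
      ⟨Γ.tgt p, ⟨rfl, rfl⟩, ?_⟩⟩⟩
    · simp only [List.mem_append, List.mem_singleton] at hx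
      rcases hx with hx | rfl | hx
      · exact hL1 _ x hx
      · exact hp
      · exact hL1 _ (x.1, !x.2) (mem_invRev hx)
    · rw [hbe _ _ hR]
      exact isWk_invRev (hL2 _)
  have h1 := cw_one hc
  rw [word_append, word_append, word_invRev, ← FreeGroup.mul_mk, ← FreeGroup.mul_mk,
    ← FreeGroup.inv_mk, map_mul, map_mul, map_inv, ← mul_assoc, mul_inv_eq_one] at h1
  exact h1

end GS

end Vale.Agent.P172V.VK
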