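import Vale.Agent.P201.Bd3.B4

/-!
# P172V, part B1: van Kampen diagrams for arbitrary tiles (helper22)

`Ex wd m u`: `u` is a product of conjugates of the words of the tiles in the multiset `m`.
`TK wd`: planar complex whose inner faces are tiles.
-/

namespace Vale.Agent.P172V.VK

open Finset Vale.Agent.P201.S

variable {A T : Type}

/-- `u` is a product of conjugates of the words of the tiles in `m` -/
inductive Ex (wd : T → List (A × Bool)) : Multiset T → FreeGroup A → Prop
  | nil : Ex wd 0 1
  | cons (m : Multiset T) (u v : FreeGroup A) (t : T) : Ex wd m u →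
      Ex wd (t ::ₘ m) (v * FreeGroup.mk (wd t) * v⁻¹ * u)

namespace Ex

variable {wd : T → List (A × Bool)}

theorem cast {m m' : Multiset T} {u u' : FreeGroup A} (h : Ex wd m u) (h1 : m = m') (h2 : u = u') :
    Ex wd m' u' := h1 ▸ h2 ▸ h

theorem mul {m m' : Multiset T} {u u' : FreeGroup A} (h : Ex wd m u) (h' : Ex wd m' u') :
    Ex wd (m + m') (u * u') := by
  induction h with
  | nil => simpa using h'
  | cons m u v t _ ih =>
    exact (Ex.cons _ _ v t ih).cast (Multiset.cons_add _ _ _).symm (by simp only [mul_assoc])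

theorem conj {m : Multiset T} {u : FreeGroup A} (h : Ex wd m u) (w : FreeGroup A) :
    Ex wd m (w * u * w⁻¹) := by
  induction h with
  | nil => simpa using Ex.nil
  | cons m u v t _ ih =>
    exact (Ex.cons _ _ (w * v) t ih).cast rfl (by group)

theorem one (v : FreeGroup A) (t : T) : Ex wd {t} (v * FreeGroup.mk (wd t) * v⁻¹) :=
  (Ex.cons 0 1 v t Ex.nil).cast rfl (mul_one _)

theorem extract {M : Multiset T} {u : FreeGroup A} (h : Ex wd M u) :
    ∀ (t : T) (m : Multiset T), M = t ::ₘ m →
      ∃ v u', u = v * FreeGroup.mk (wd t) * v⁻¹ * u' ∧ Ex wd m u' := by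
  induction h with
  | nil => intro t m h; exact absurd h.symm (Multiset.cons_ne_zero)
  | cons m0 u0 v0 t0 h0 ih =>
    intro t m h
    rcases Multiset.cons_eq_cons.1 h with ⟨rfl, rfl⟩ | ⟨-, cs, h1, h2⟩
    · exact ⟨v0, u0, rfl, h0⟩
    · obtain ⟨v, u', e, h3⟩ := ih t cs h1
      refine ⟨v0 * FreeGroup.mk (wd t0) * v0⁻¹ * v, v0 * FreeGroup.mk (wd t0) * v0⁻¹ * u', ?_, ?_⟩
      · rw [e]; group
      · rw [h2]; exact Ex.cons _ _ _ _ h3

/-- a tile can be replaced by another expression of its word -/
theorem replace {t : T} {m n : Multiset T} {u : FreeGroup A} (h : Ex wd (t ::ₘ m) u)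
    (hn : Ex wd n (FreeGroup.mk (wd t))) : Ex wd (n + m) u := by
  obtain ⟨v, u', e, h1⟩ := h.extract t m rfl
  rw [e]
  exact (hn.conj v).mul h1

end Ex

/-- planar complex whose inner faces are tiles -/
structure TK (wd : T → List (A × Bool)) extends PC A where
  q : F → T
  sq : ∀ f : F, (bd (some f)).map (fun d => (lab d.1, d.2)) = wd (q f)

variable {wd : T → List (A × Bool)}

/-- the tiles of a set of faces -/
def TK.ms (K : TK wd) (C : Finset K.F) : Multiset T := ∑ f ∈ C, ({K.q f} : Multiset T)

/-- `w` is the word of the outer face of a complex with the tiles `m` -/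
def Real (wd : T → List (A × Bool)) (w : List (A × Bool)) (m : Multiset T) : Prop :=
  ∃ K : TK wd, K.toPC.wd none = w ∧ K.ms univ = m

/-- the point -/
def point (wd : T → List (A × Bool)) : TK wd where
  V := Unit
  E := Empty
  F := Empty
  org := fun _ => ()
  lab := fun e => e.elim
  bd := fun _ => []
  chain := fun _ => List.isChain_nil
  closed := fun _ a ha => absurd ha (by simp)
  once := fun d => d.1.elim
  ne := fun f => f.elim
  conn := fun _ _ => Relation.ReflTransGen.refl
  dconn := by
    rintro (_ | f) (_ | g)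
    · exact Relation.ReflTransGen.refl
    · exact g.elim
    · exact f.elim
    · exact f.elim
  euler := by simp
  q := fun f => f.elim
  sq := fun f => f.elim

theorem real_nil : Real wd [] 0 := ⟨point wd, rfl, Finset.sum_empty⟩

theorem exists_out_path (K : PC A) : ∃ r0, VPth K.org r0 (K.bd none) r0 := by
  by_cases h0 : K.bd none = []
  · obtain ⟨r0⟩ := vnonempty K
    exact ⟨r0, by rw [h0]; exact VPth.nil _⟩
  · exact K.exists_vpth' none h0

theorem Real.spur {l1 l2 : List (A × Bool)} {m : Multiset T} (h : Real wd (l1 ++ l2) m)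
    (a : A × Bool) : Real wd (l1 ++ a :: (a.1, !a.2) :: l2) m := by
  obtain ⟨K, hw, hm⟩ := h
  obtain ⟨r0, hp⟩ := exists_out_path K.toPC
  obtain ⟨m1, m2, hb, hm1, hm2⟩ := List.map_eq_append_iff.1 hw
  rw [hb, VPth.append_iff] at hp
  obtain ⟨v0, h1, h2⟩ := hp
  let K' : TK wd :=
    { toPC := K.toPC.spur hb h1 h2 a.1 a.2
      q := K.q
      sq := fun f => by
        rw [← K.sq f]
        exact List.map_map }
  refine ⟨K', ?_, hm⟩
  rw [← hm1, ← hm2]
  exact vmap_spur K.lab a.1 a.2 m1 m2

theorem Real.spurs {m : Multiset T} (c : List (A × Bool)) : ∀ {l1 l2 : List (A × Bool)},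
    Real wd (l1 ++ l2) m → Real wd (l1 ++ c ++ (FreeGroup.invRev c ++ l2)) m := by
  induction c with
  | nil => intro l1 l2 h; simpa using h
  | cons x c ih =>
    intro l1 l2 h
    have h1 := h.spur x
    have h2 : l1 ++ x :: (x.1, !x.2) :: l2 = (l1 ++ [x]) ++ ((x.1, !x.2) :: l2) := by simp
    rw [h2] at h1
    have h3 := ih h1
    have e : FreeGroup.invRev (x :: c) = FreeGroup.invRev c ++ [(x.1, !x.2)] := vwinv_cons x c
    rw [e]
    have h4 : l1 ++ x :: c ++ (FreeGroup.invRev c ++ [(x.1, !x.2)] ++ l2) =
        l1 ++ [x] ++ c ++ (FreeGroup.invRev c ++ (x.1, !x.2) :: l2) := by simp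
    rw [h4]
    exact h3

/-- a new face: the outer word gets a cyclic permutation of the inverse of the tile -/
theorem Real.face {l1 l2 : List (A × Bool)} {m : Multiset T} (h : Real wd (l1 ++ l2) m) (t : T)
    {c : List (A × Bool)} {b : A × Bool} (ht : wd t = c ++ [b]) :
    Real wd (l1 ++ (b.1, !b.2) :: (FreeGroup.invRev c ++ l2)) (t ::ₘ m) := by
  obtain ⟨K, hw, hm⟩ := Real.spurs c h
  obtain ⟨r0, hp⟩ := exists_out_path K.toPC
  obtain ⟨m12, m3, hb, hm12, hm3⟩ := List.map_eq_append_iff.1 hw
  obtain ⟨m1, m2, hm', hm1, hm2⟩ := List.map_eq_append_iff.1 hm12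
  subst hm'
  rw [hb, VPth.append_iff] at hp
  obtain ⟨b0, hp12, h3⟩ := hp
  rw [VPth.append_iff] at hp12
  obtain ⟨a0, h1, h2⟩ := hp12
  let K' : TK wd :=
    { toPC := K.toPC.addFace hb h1 h2 h3 b.1 (!b.2)
      q := fun f => f.elim t K.q
      sq := fun f => by
        cases f with
        | none =>
          refine (vmap_face K.lab b.1 (!!b.2) m2 []).trans ?_
          change _ = wd t
          rw [ht, hm2, Bool.not_not]
          rfl
        | some f =>
          change _ = wd (K.q f)
          rw [← K.sq f]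
          exact List.map_map }
  refine ⟨K', ?_, ?_⟩
  · rw [← hm1, ← hm3]
    exact vmap_face K.lab b.1 (!b.2) m1 m3
  · unfold TK.ms
    change ∑ f : Option K.F, _ = _
    rw [Fintype.sum_option, ← hm]
    rfl

/-- VK0 -/
theorem Ex.real {m : Multiset T} {u : FreeGroup A} (h : Ex wd m u) (hne : ∀ t ∈ m, wd t ≠ []) :
    ∃ w, FreeGroup.mk w = u⁻¹ ∧ Real wd w m := by
  classical
  induction h with
  | nil => exact ⟨[], by simp [FreeGroup.one_eq_mk], real_nil⟩
  | cons m u v t _ ih =>
    obtain ⟨w, hw, hr⟩ := ih fun s hs => hne s (Multiset.mem_cons_of_mem hs)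
    have h0 := hne t (Multiset.mem_cons_self _ _)
    obtain ⟨c, b, hc⟩ : ∃ c b, wd t = c ++ [b] :=
      ⟨_, _, (List.dropLast_append_getLast h0).symm⟩
    have e1 := Real.spurs v.toWord (l1 := w) (l2 := []) (by simpa using hr)
    have e2 := e1.face t hc
    refine ⟨_, ?_, e2⟩
    have e3 : ∀ l : List (A × Bool), FreeGroup.mk ((b.1, !b.2) :: l) =
        (FreeGroup.mk [b])⁻¹ * FreeGroup.mk l := by
      intro l
      rw [FreeGroup.inv_mk, FreeGroup.mul_mk]
      rfl
    rw [← FreeGroup.mul_mk, ← FreeGroup.mul_mk, e3, ← FreeGroup.mul_mk, ← FreeGroup.mul_mk,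
      ← FreeGroup.inv_mk, ← FreeGroup.inv_mk, FreeGroup.mk_toWord, hw, hc, ← FreeGroup.mul_mk,
      ← FreeGroup.one_eq_mk]
    group

/-- VK3 -/
theorem real_fold3 (K : TK wd) {l1 l2 : List (K.E × Bool)} {d : K.E × Bool}
    (h : K.bd none = l1 ++ d :: rv d :: l2) :
    Real wd ((l1 ++ l2).map fun x => (K.lab x.1, x.2)) (K.ms univ) := by
  have D := Fold.vk3_data (K := K.toPC) d l1 l2 h
  let K' : TK wd :=
    { toPC := Fold.subPC D
      q := K.q
      sq := fun f => by
        rw [← K.sq f]
        have e : K.bd (some f) = Fold.vk3B K.toPC l1 l2 (some f) := rfl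
        rw [e]
        conv_rhs => rw [← Fold.map_low d.1 _ (D.hB (some f)), List.map_map]
        rfl }
  refine ⟨K', ?_, rfl⟩
  show (Fold.low d.1 (Fold.vk3B K.toPC l1 l2 none)).map _ = _
  have e : l1 ++ l2 = Fold.vk3B K.toPC l1 l2 none := rfl
  rw [e]
  conv_rhs => rw [← Fold.map_low d.1 _ (D.hB none), List.map_map]
  rfl

/-- VK4 -/
theorem real_fold4 (K : TK wd) (D : K.toPC.FbD) :
    Real wd ((D.l1 ++ D.l2).map fun x => (K.lab x.1, x.2)) (K.ms univ) := by
  let K' : TK wd :=
    { toPC := D.fold
      q := K.q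
      sq := fun f => by
        rw [← K.sq f]
        exact D.word_map _ }
  exact ⟨K', D.word_map _, rfl⟩

section rec

variable (K : TK wd) (C : K.toPC.Cotree)

open Classical in
/-- the product along a list of darts without parent darts, in terms of the children -/
theorem prod_list (Z : K.F → Multiset T) (l : List (K.E × Bool)) :
    l.Nodup → (∀ d ∈ l, ∀ f, C.dd f ≠ d) →
    (∀ g, rv (C.dd g) ∈ l → Ex wd (Z g) (C.c (C.dd g))) →
    Ex wd (∑ g ∈ univ.filter (fun g => rv (C.dd g) ∈ l), Z g) ((l.map C.c).prod)⁻¹ := by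
  induction l with
  | nil =>
    intro _ _ _
    simpa using Ex.nil
  | cons d l ih =>
    intro hnd hdd hE
    rw [List.nodup_cons] at hnd
    have h1 := ih hnd.2 (fun d' hd' => hdd d' (List.mem_cons_of_mem _ hd'))
      (fun g hg => hE g (List.mem_cons_of_mem _ hg))
    rcases DR.dart_cases C d with h | ⟨f, hf⟩ | ⟨g, hg⟩
    · have e : (univ.filter fun g => rv (C.dd g) ∈ d :: l) =
          univ.filter fun g => rv (C.dd g) ∈ l := by
        refine Finset.filter_congr fun g _ => ?_
        rw [List.mem_cons]
        refine ⟨fun h2 => h2.resolve_left fun h3 => h g ?_, Or.inr⟩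
        rw [← h3]
        rfl
      rw [e, List.map_cons, List.prod_cons, DR.c_triv C h, one_mul]
      exact h1
    · exact absurd hf (hdd d List.mem_cons_self f)
    · have e : (univ.filter fun g => rv (C.dd g) ∈ d :: l) =
          insert g (univ.filter fun g => rv (C.dd g) ∈ l) := by
        ext x
        rw [Finset.mem_filter, Finset.mem_insert, Finset.mem_filter, List.mem_cons]
        constructor
        · rintro ⟨_, h2 | h2⟩
          · left
            refine DR.dd_inj C ?_
            rw [← DR.rv_rv (C.dd x), h2, ← hg, DR.rv_rv]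
          · exact Or.inr ⟨Finset.mem_univ _, h2⟩
        · rintro (rfl | h2)
          · exact ⟨Finset.mem_univ _, Or.inl hg⟩
          · exact ⟨Finset.mem_univ _, Or.inr h2.2⟩
      have hn : g ∉ univ.filter fun g => rv (C.dd g) ∈ l := by
        rw [Finset.mem_filter, hg]
        exact fun h2 => hnd.1 h2.2
      rw [e, Finset.sum_insert hn, List.map_cons, List.prod_cons, mul_inv_rev]
      have h2 := hE g (hg ▸ List.mem_cons_self)
      have h3 : C.c (C.dd g) = (C.c d)⁻¹ := by rw [← hg, DR.c_rv, inv_inv]
      rw [h3] at h2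
      exact (h1.mul h2).cast (add_comm _ _) rfl

/-- the parent dart in the list of a face -/
theorem split_face {K : PC A} (C : K.Cotree) (f : K.F) :
    ∃ l1 l2 : List (K.E × Bool), K.bd (some f) = l1 ++ C.dd f :: l2 ∧
    (∀ d ∈ l1, ∀ g, C.dd g ≠ d) ∧ (∀ d ∈ l2, ∀ g, C.dd g ≠ d) ∧ l1.Nodup ∧ l2.Nodup ∧
    List.Disjoint l1 l2 := by
  obtain ⟨l1, l2, h⟩ := List.append_of_mem (C.mem f)
  have hn := DR.nodup (K := K) (some f)
  rw [h, List.nodup_append] at hn
  obtain ⟨h1, h2, h3⟩ := hn
  rw [List.nodup_cons] at h2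
  have hm : ∀ d, d ∈ l1 ∨ d ∈ l2 → d ∈ K.bd (some f) := by
    intro d hd
    rw [h]
    simp only [List.mem_append, List.mem_cons]
    rcases hd with hd | hd
    · exact Or.inl hd
    · exact Or.inr (Or.inr hd)
  have key : ∀ d, (d ∈ l1 ∨ d ∈ l2) → ∀ g, C.dd g ≠ d := by
    rintro d hd g rfl
    have h5 : g = f := Option.some.inj (DR.once' (C.mem g) (hm _ hd))
    subst h5
    rcases hd with hd | hd
    · exact h3 _ hd _ List.mem_cons_self rfl
    · exact h2.1 hd
  refine ⟨l1, l2, h, fun d hd => key d (Or.inl hd), fun d hd => key d (Or.inr hd), h1, h2.2, ?_⟩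
  intro d hd1 hd2
  exact h3 _ hd1 _ (List.mem_cons_of_mem _ hd2) rfl

/-- the value of a cotree dart is the product of the tiles of its subtree -/
theorem rec_dd (f : K.F) : Ex wd (K.ms (C.sub f)) (C.c (C.dd f)) := by
  classical
  refine DR.ind C (motive := fun f => Ex wd (K.ms (C.sub f)) (C.c (C.dd f))) ?_ f
  intro f hE
  obtain ⟨l1, l2, h, h1, h2, h3, h4, h5⟩ := split_face C f
  obtain ⟨d, hd⟩ : ∃ d, d ∈ (K.bd (some f)).head? := by
    have := K.ne f
    cases h : K.bd (some f) with
    | nil => exact absurd h this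
    | cons a l => exact ⟨a, rfl⟩
  have hp := DR.prod_face C hd
  have hm : ∀ g, C.par g = some f ↔ (rv (C.dd g) ∈ l1 ∨ rv (C.dd g) ∈ l2) := by
    intro g
    rw [DR.par_iff, h, List.mem_append, List.mem_cons]
    have := DR.rv_dd_ne C f g
    tauto
  have E1 := prod_list K C (fun g => K.ms (C.sub g)) l1 h3 h1
    fun g hg => hE g ((hm g).2 (Or.inl hg))
  have E2 := prod_list K C (fun g => K.ms (C.sub g)) l2 h4 h2
    fun g hg => hE g ((hm g).2 (Or.inr hg))
  have e : (univ.filter fun g => C.par g = some f) =
      (univ.filter fun g => rv (C.dd g) ∈ l1) ∪ univ.filter fun g => rv (C.dd g) ∈ l2 := by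
    ext g
    simp only [Finset.mem_union, Finset.mem_filter, Finset.mem_univ, true_and]
    exact hm g
  have hdis : Disjoint (univ.filter fun g => rv (C.dd g) ∈ l1)
      (univ.filter fun g => rv (C.dd g) ∈ l2) := by
    rw [Finset.disjoint_left]
    intro g hg1 hg2
    exact h5 (Finset.mem_filter.1 hg1).2 (Finset.mem_filter.1 hg2).2
  have hc : C.c (C.dd f) = ((l1.map C.c).prod)⁻¹ *
      (C.pot (K.org d) * FreeGroup.mk (wd (K.q f)) * (C.pot (K.org d))⁻¹) *
        ((l2.map C.c).prod)⁻¹ := by
    have hw : K.toPC.wd (some f) = wd (K.q f) := K.sq f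
    have hp' : ((K.bd (some f)).map C.c).prod =
      C.pot (K.org d) * FreeGroup.mk (K.toPC.wd (some f)) * (C.pot (K.org d))⁻¹ := hp
    rw [← hw, ← hp', h, List.map_append, List.prod_append, List.map_cons, List.prod_cons]
    group
  rw [hc]
  refine ((E1.mul (Ex.one (C.pot (K.org d)) (K.q f))).mul E2).cast ?_ rfl
  have hs := DR.sum_sub C (fun x => ({K.q x} : Multiset T)) f
  have hs' : K.ms (C.sub f) = {K.q f} + ∑ g ∈ univ.filter (fun g => C.par g = some f),
      K.ms (C.sub g) := by
    unfold TK.ms
    convert hs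
  rw [hs', e, Finset.sum_union hdis]
  abel

theorem outer_dd {K : PC A} (C : K.Cotree) {d : K.E × Bool} (hd : d ∈ K.bd none) (f : K.F) :
    C.dd f ≠ d := by
  rintro rfl
  exact Option.some_ne_none f (DR.once' (C.mem f) hd)

theorem prod_outer {K : PC A} (C : K.Cotree) (hroot : ∀ d ∈ (K.bd none).head?, K.org d = C.root) :
    ((K.bd none).map C.c).prod = FreeGroup.mk (K.wd none) := by
  cases hl : (K.bd none).head? with
  | none =>
    have h0 : K.bd none = [] := List.head?_eq_none_iff.1 hl
    unfold PC.wd
    rw [h0]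
    rfl
  | some d =>
    have h1 := hroot d (by rw [hl]; rfl)
    rw [DR.prod_face C (f := none) (d := d) (by rw [hl]; rfl), h1, C.pot_root, one_mul, inv_one,
      mul_one]
    rfl

end rec

theorem exists_root (K : PC A) : ∃ r0 : K.V, ∀ d ∈ (K.bd none).head?, K.org d = r0 := by
  obtain ⟨r0, h⟩ := exists_out_path K
  exact ⟨r0, h.head⟩

/-- from a complex to an expression -/
theorem TK.ex (K : TK wd) : Ex wd (K.ms univ) (FreeGroup.mk (K.toPC.wd none))⁻¹ := by
  classical
  obtain ⟨r0, h0⟩ := exists_root K.toPC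
  obtain ⟨C, -, hr, -⟩ := T2.exists_cotree' K.toPC r0
  have hout := prod_list K C (fun g => K.ms (C.sub g)) (K.bd none) (DR.nodup (K := K.toPC) none)
    (fun d hd f => outer_dd C hd f) fun g _ => rec_dd K C g
  have e : (univ.filter fun g => rv (C.dd g) ∈ K.bd none) =
      univ.filter fun g => C.par g = none :=
    Finset.filter_congr fun g _ => (DR.par_iff C g none).symm
  rw [prod_outer C (by rw [hr]; exact h0), e] at hout
  refine hout.cast ?_ rfl
  have := DR.sum_root C (fun x => ({K.q x} : Multiset T))
  unfold TK.ms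
  convert this

/-- VK5 -/
theorem TK.bubble (K : TK wd) {l1 l2 : List (K.E × Bool)} {d d' : K.E × Bool}
    (h : K.bd none = l1 ++ d :: d' :: l2) (hlab : K.lab d.1 = K.lab d'.1) (hsgn : d'.2 = !d.2)
    (hne : d.1 ≠ d'.1) (hends : K.org d = K.org (rv d')) :
    ∃ m1 m2, m1 ≠ 0 ∧ K.ms univ = m1 + m2 ∧ Ex wd m2 (FreeGroup.mk (K.toPC.wd none))⁻¹ := by
  classical
  obtain ⟨r0, h0⟩ := exists_root K.toPC
  obtain ⟨C, S, hr, -, htree, -⟩ := T2.exists_cotree' K.toPC r0
  have hnd' : (l1 ++ d :: d' :: l2).Nodup := by rw [← h]; exact DR.nodup (K := K.toPC) none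
  have hprod := prod_outer C (by rw [hr]; exact h0)
  have hcons : K.org d' = K.org (rv d) := by
    have hch := K.chain none
    rw [h, List.isChain_append] at hch
    exact (List.isChain_cons_cons.mp hch.2.1).1
  have hcc : C.c d * C.c d' = 1 := by
    have e1 : K.lt d' = (K.lt d)⁻¹ := by
      simp only [PC.lt, hsgn, ← hlab]
      simp [FreeGroup.inv_mk, FreeGroup.invRev]
    unfold PC.Cotree.c
    rw [e1, hcons, ← hends]
    group
  have hsplit : ((l1 ++ l2).map C.c).prod = FreeGroup.mk (K.toPC.wd none) := by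
    rw [← hprod, h]
    simp only [List.map_append, List.map_cons, List.prod_append, List.prod_cons]
    rw [← mul_assoc (C.c d), hcc, one_mul]
  have X2 := prod_list K C (fun g => K.ms (C.sub g)) (l1 ++ l2)
    (by
      refine List.Nodup.sublist ?_ hnd'
      exact List.Sublist.append_left
        ((List.sublist_cons_self d' l2).trans (List.sublist_cons_self d (d' :: l2))) l1)
    (by
      intro x hx
      refine outer_dd C ?_
      rw [h]
      simp only [List.mem_append, List.mem_cons] at hx ⊢
      tauto)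
    fun g _ => rec_dd K C g
  rw [hsplit] at X2
  have hdisj : Disjoint (univ.filter fun g => rv (C.dd g) ∈ [d, d'])
      (univ.filter fun g => rv (C.dd g) ∈ l1 ++ l2) := by
    rw [Finset.disjoint_left]
    intro f hf hf'
    simp only [Finset.mem_filter, Finset.mem_univ, true_and] at hf hf'
    have h3 : ∀ x, x ∈ [d, d'] → x ∈ l1 ++ l2 → False := by
      intro x hx hx'
      have hc1 : 2 ≤ (l1 ++ d :: d' :: l2).count x := by
        have e1 : (l1 ++ d :: d' :: l2).count x =
            (l1 ++ l2).count x + ([d, d'] : List _).count x := by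
          have : (l1 ++ d :: d' :: l2) = l1 ++ ([d, d'] ++ l2) := rfl
          rw [this, List.count_append, List.count_append, List.count_append]
          omega
        have := List.count_pos_iff.mpr hx
        have := List.count_pos_iff.mpr hx'
        omega
      have := List.nodup_iff_count_le_one.mp hnd' x
      omega
    exact h3 _ hf hf'
  have hunion : (univ.filter fun g => rv (C.dd g) ∈ [d, d']) ∪
      (univ.filter fun g => rv (C.dd g) ∈ l1 ++ l2) = univ.filter (fun f => C.par f = none) := by
    ext f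
    simp only [Finset.mem_union, Finset.mem_filter, Finset.mem_univ, true_and]
    rw [DR.par_iff, h]
    simp only [List.mem_cons, List.mem_append, List.not_mem_nil, or_false]
    tauto
  refine ⟨∑ g ∈ univ.filter (fun g => rv (C.dd g) ∈ [d, d']), K.ms (C.sub g), _, ?_, ?_, X2⟩
  · intro hzero
    have hempty : ∀ f, rv (C.dd f) ∉ [d, d'] := by
      intro f hf
      rw [Finset.sum_eq_zero_iff] at hzero
      have h1 := hzero f (Finset.mem_filter.2 ⟨mem_univ _, hf⟩)
      unfold TK.ms at h1
      rw [Finset.sum_eq_zero_iff] at h1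
      exact Multiset.singleton_ne_zero _ (h1 f (DR.self_mem C f))
    have hnt : ∀ x, x ∈ [d, d'] → ∀ f, (C.dd f).1 ≠ x.1 := by
      intro x hx f hfx
      have hx' : x ∈ K.bd none := by
        rw [h]
        simp only [List.mem_append, List.mem_cons, List.not_mem_nil, or_false] at hx ⊢
        tauto
      apply hempty f
      rcases VK5.eq_or hfx with h1 | h1
      · exact absurd h1 (outer_dd C hx' f)
      · rw [h1, DR.rv_rv]
        exact hx
    exact VK5.not_both K.toPC S hne hcons.symm hends
      ((htree d.1).mpr (hnt d (by simp))) ((htree d'.1).mpr (hnt d' (by simp)))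
  · rw [← Finset.sum_union hdisj, hunion]
    have := DR.sum_root C (fun x => ({K.q x} : Multiset T))
    unfold TK.ms
    convert this.symm

theorem exists_break {α : Type} (R : α → α → Prop) : ∀ l : List α, ¬ l.IsChain R →
    ∃ l1 a b l2, l = l1 ++ a :: b :: l2 ∧ ¬ R a b := by
  intro l
  induction l with
  | nil => intro h; exact absurd List.isChain_nil h
  | cons a l ih =>
    intro h
    cases l with
    | nil => exact absurd (List.isChain_singleton a) h
    | cons b l =>
      by_cases hab : R a b
      · have : ¬ (b :: l).IsChain R := fun h' => h (List.isChain_cons_cons.2 ⟨hab, h'⟩)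
        obtain ⟨l1, c, d, l2, he, hn⟩ := ih this
        exact ⟨a :: l1, c, d, l2, by rw [he]; rfl, hn⟩
      · exact ⟨[], a, b, l, rfl, hab⟩

/-- **van Kampen**: an expression from which no tiles can be omitted is realised by a complex with
reduced outer word. -/
theorem Ex.real_reduced [DecidableEq A] {m : Multiset T} {u : FreeGroup A} (h : Ex wd m u)
    (hne : ∀ t ∈ m, wd t ≠ []) (hmin : ∀ m1 m2, m1 ≠ 0 → m = m1 + m2 → ¬ Ex wd m2 u) :
    Real wd (u⁻¹).toWord m := by
  have key : ∀ n : ℕ, ∀ w : List (A × Bool), w.length ≤ n → FreeGroup.mk w = u⁻¹ → Real wd w m →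
      Real wd (u⁻¹).toWord m := by
    intro n
    induction n with
    | zero =>
      intro w hw hu hr
      have h1 : w = [] := List.length_eq_zero_iff.1 (by omega)
      subst h1
      rw [← hu, FreeGroup.toWord_mk, FreeGroup.reduce_nil]
      exact hr
    | succ n ih =>
      intro w hw hu hr
      obtain ⟨K, hK, hm⟩ := hr
      by_cases hr : (K.bd none).IsChain (fun d d' => K.lab d.1 = K.lab d'.1 → d.2 = d'.2)
      · refine ⟨K, ?_, hm⟩
        have h1 : FreeGroup.IsReduced (K.toPC.wd none) := by
          unfold FreeGroup.IsReduced PC.wd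
          rw [List.isChain_map]
          exact hr
        rw [← hu, FreeGroup.toWord_mk, ← hK, h1.reduce_eq]
      · obtain ⟨l1, d, d', l2, he, hn⟩ := exists_break _ _ hr
        have hl : K.lab d.1 = K.lab d'.1 := by
          by_contra h
          exact hn (fun h' => absurd h' h)
        have hs : d'.2 = !d.2 := by
          have : d.2 ≠ d'.2 := fun h => hn (fun _ => h)
          revert this
          cases d.2 <;> cases d'.2 <;> simp
        have hF : Real wd ((l1 ++ l2).map fun x => (K.lab x.1, x.2)) (K.ms univ) := by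
          by_cases hd : d.1 = d'.1
          · have : d' = rv d := Prod.ext hd.symm hs
            subst this
            exact real_fold3 K he
          · by_cases ho : K.org d = K.org (rv d')
            · obtain ⟨m1, m2, h1, h2, h3⟩ := K.bubble he hl hs hd ho
              rw [hK, hu, inv_inv] at h3
              exact absurd h3 (hmin m1 m2 h1 (hm ▸ h2))
            · exact real_fold4 K ⟨d, d', l1, l2, he, hd, hl, hs, ho⟩
        rw [hm] at hF
        have hwd : w = l1.map (fun d => (K.lab d.1, d.2)) ++
            (K.lab d.1, d.2) :: (K.lab d.1, !d.2) :: l2.map (fun d => (K.lab d.1, d.2)) := by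
          rw [← hK]
          unfold PC.wd
          rw [he]
          simp only [List.map_append, List.map_cons]
          rw [hs, hl]
        refine ih _ ?_ ?_ hF
        · rw [hwd] at hw
          simp only [List.length_append, List.length_cons, List.length_map] at hw ⊢
          omega
        · rw [← hu, hwd, List.map_append]
          exact (Quot.sound FreeGroup.Red.Step.not).symm
  obtain ⟨w, hw, hr⟩ := h.real hne
  exact key _ w le_rfl hw hr

/-! ### merging two faces along an edge -/

/-- the inner face `h` becomes the outer face -/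
def reroot (K : PC A) (h : K.F) : PC A where
  V := K.V
  E := K.E
  F := K.F
  org := K.org
  lab := K.lab
  bd := fun f => K.bd (Equiv.swap none (some h) f)
  chain := fun f => K.chain _
  closed := fun f => K.closed _
  once := fun d => by
    rw [← K.once d]
    exact Equiv.sum_comp (Equiv.swap none (some h)) (fun f => (K.bd f).count d)
  ne := fun f => by
    by_cases hf : f = h
    · rw [hf, Equiv.swap_apply_right]
      exact fun h0 => (vempty_faces K h0).false h
    · rw [Equiv.swap_apply_of_ne_of_ne (Option.some_ne_none f) (fun e => hf (Option.some.inj e))]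
      exact K.ne f
  conn := K.conn
  dconn := fun f g => by
    have h1 := K.dconn (Equiv.swap none (some h) f) (Equiv.swap none (some h) g)
    have h2 := h1.lift (Equiv.swap none (some h))
      (p := fun a b => ∃ d, d ∈ K.bd (Equiv.swap none (some h) a) ∧
        rv d ∈ K.bd (Equiv.swap none (some h) b)) (by
        rintro a b ⟨d, h3, h4⟩
        refine ⟨d, ?_, ?_⟩
        · rw [Equiv.swap_apply_self]; exact h3
        · rw [Equiv.swap_apply_self]; exact h4)
    simp only [Function.onFun, Equiv.swap_apply_self] at h2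
    exact h2
  euler := K.euler

theorem reroot_none (K : PC A) (h : K.F) : (reroot K h).bd none = K.bd (some h) := by
  show K.bd (Equiv.swap none (some h) none) = _
  rw [Equiv.swap_apply_left]

theorem reroot_self (K : PC A) (h : K.F) : (reroot K h).bd (some h) = K.bd none := by
  show K.bd (Equiv.swap none (some h) (some h)) = _
  rw [Equiv.swap_apply_right]

theorem reroot_ne (K : PC A) {h f : K.F} (hf : f ≠ h) :
    (reroot K h).bd (some f) = K.bd (some f) := by
  show K.bd (Equiv.swap none (some h) (some f)) = _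
  rw [Equiv.swap_apply_of_ne_of_ne (Option.some_ne_none f) (fun e => hf (Option.some.inj e))]

/-- two different faces with a common edge can be replaced by one tile -/
theorem TK.merge (K : TK wd) {g h : K.F} (hgh : h ≠ g) {d : K.E × Bool}
    {l1 l2 m1 m2 : List (K.E × Bool)} (hh : K.bd (some h) = l1 ++ rv d :: l2)
    (hg : K.bd (some g) = m1 ++ d :: m2) (t : T)
    (ht : (l1 ++ ((m2 ++ m1) ++ l2)).map (fun x => (K.lab x.1, x.2)) = wd t) :
    ∃ m, K.ms univ = K.q g ::ₘ K.q h ::ₘ m ∧
      Ex wd (t ::ₘ m) (FreeGroup.mk (K.toPC.wd none))⁻¹ := by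
  classical
  let K1 := reroot K.toPC h
  let D : Dl.DelData K1 :=
    ⟨g, d, l1, l2, m1, m2, (reroot_none _ _).trans hh, (reroot_ne _ hgh.symm).trans hg⟩
  let h' : D.del.F := ⟨h, hgh⟩
  have hmap : ∀ l : List (D.del.E × Bool), l.map (fun x => (D.del.lab x.1, x.2)) =
      (l.map Dl.emb).map (fun x => (K.lab x.1, x.2)) := by
    intro l
    exact (List.map_map (f := Dl.emb) (g := fun x : K.E × Bool => (K.lab x.1, x.2))).symm
  let q2 : D.del.F → T := fun f => if f = h' then t else K.q f.1
  have q2h : q2 h' = t := if_pos rfl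
  have q2n : ∀ f, f ≠ h' → q2 f = K.q f.1 := fun f hf => if_neg hf
  have hsq : ∀ f : D.del.F, ((reroot D.del h').bd (some f)).map
      (fun x : D.del.E × Bool => (D.del.lab x.1, x.2)) = wd (q2 f) := by
    intro f
    by_cases hf : f = h'
    · rw [hf, q2h, reroot_self, ← ht]
      refine (hmap _).trans ?_
      congr 1
      exact D.nbd_none
    · rw [q2n f hf, reroot_ne _ hf]
      refine (hmap _).trans (Eq.trans ?_ (K.sq f.1))
      congr 1
      refine (D.nbd_some f).trans ?_
      exact reroot_ne _ fun e => hf (Subtype.ext e)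
  let K2 : TK wd :=
    { toPC := reroot D.del h'
      q := q2
      sq := hsq }
  have hout : K2.toPC.wd none = K.toPC.wd none := by
    show ((reroot D.del h').bd none).map _ = _
    rw [reroot_none]
    refine (hmap _).trans ?_
    unfold PC.wd
    congr 1
    exact (D.nbd_some h').trans (reroot_self _ _)
  refine ⟨∑ f ∈ (univ : Finset D.del.F).erase h', ({K.q f.1} : Multiset T), ?_, ?_⟩
  · unfold TK.ms
    rw [Fintype.sum_eq_add_sum_subtype_ne _ g]
    have e := Finset.add_sum_erase (univ : Finset D.del.F)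
      (fun f => ({K.q f.1} : Multiset T)) (mem_univ h')
    rw [← Multiset.singleton_add, ← Multiset.singleton_add]
    congr 1
    exact e.symm
  · rw [← hout]
    refine K2.ex.cast ?_ rfl
    unfold TK.ms
    have e := Finset.add_sum_erase (univ : Finset D.del.F)
      (fun f => ({K2.q f} : Multiset T)) (mem_univ h')
    refine e.symm.trans ?_
    rw [← Multiset.singleton_add]
    congr 1
    · exact congrArg _ q2h
    · refine Finset.sum_congr rfl fun f hf => ?_
      exact congrArg _ (q2n f (Finset.ne_of_mem_erase hf))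

end Vale.Agent.P172V.VK
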