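import Vale.Agent.P172V.VK.Ex

/-!
# P172V, part B3: from the local to the global inequality in a planar complex (helper22)

Layers of the distance to the outer boundary, and cuts along fundamental cycles inside a layer.
-/

namespace Vale.Agent.P172V.VK

open Finset Vale.Agent.P201.S

/-! ### elementary counting -/

theorem tree_cut {F : Type} [Fintype F] [DecidableEq F] (sub : F → Finset F) (top : F → Prop)
    [DecidablePred top] {L B : ℕ} (hL : 0 < L) (hLB : L ≤ B) (H1 : ∀ f, ∃ z, top z ∧ f ∈ sub z)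
    (H2 : ∀ W : Finset F, (∃ f, L ≤ (sub f ∩ W).card) →
      ∃ z, L ≤ (sub z ∩ W).card ∧ (sub z ∩ W).card ≤ B) (W : Finset F) :
    ∃ Z : Finset F, Z.card * L ≤ W.card ∧ ∀ f,
      (W.filter fun g => ∀ z, (top z ∨ z ∈ Z) → (f ∈ sub z ↔ g ∈ sub z)).card ≤ B := by
  induction hn : W.card using Nat.strong_induction_on generalizing W with
  | _ n ih =>
    subst hn
    by_cases h : ∃ f, L ≤ (sub f ∩ W).card
    · obtain ⟨z, h1, h2⟩ := H2 W h
      have h3 : (W \ sub z).card + (sub z ∩ W).card = W.card := by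
        rw [inter_comm]
        exact Finset.card_sdiff_add_card_inter _ _
      obtain ⟨Z, hZ1, hZ2⟩ := ih (W \ sub z).card (by omega) (W \ sub z) rfl
      refine ⟨insert z Z, ?_, fun f => ?_⟩
      · have := Finset.card_insert_le z Z
        calc (insert z Z).card * L ≤ (Z.card + 1) * L := Nat.mul_le_mul_right _ this
          _ = Z.card * L + L := by ring
          _ ≤ W.card := by omega
      · by_cases hf : f ∈ sub z
        · refine le_trans (Finset.card_le_card fun g hg => ?_) h2
          rw [mem_filter] at hg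
          exact mem_inter.2 ⟨(hg.2 z (Or.inr (mem_insert_self _ _))).1 hf, hg.1⟩
        · refine le_trans (Finset.card_le_card fun g hg => ?_) (hZ2 f)
          rw [mem_filter] at hg ⊢
          refine ⟨mem_sdiff.2 ⟨hg.1, fun h4 => hf ((hg.2 z (Or.inr (mem_insert_self _ _))).2 h4)⟩,
            fun y hy => hg.2 y (hy.imp id mem_insert_of_mem)⟩
    · refine ⟨∅, by simp, fun f => ?_⟩
      obtain ⟨z, h1, h2⟩ := H1 f
      push Not at h
      refine le_trans (Finset.card_le_card fun g hg => ?_) ((h z).le.trans hLB)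
      rw [mem_filter] at hg
      exact mem_inter.2 ⟨(hg.2 z (Or.inl h1)).1 h2, hg.1⟩

theorem card_shift (k a c : ℕ) :
    ((range k).filter fun j => (a + j) / k ≠ (a + c + j) / k).card ≤ c := by
  induction c with
  | zero => simp
  | succ c ih =>
    have h1 : ((range k).filter fun j => k ∣ a + c + j + 1).card ≤ 1 := by
      rw [Finset.card_le_one]
      intro i hi j hj
      rw [mem_filter, mem_range] at hi hj
      have h2 : a + c + 1 + i ≡ a + c + 1 + j [MOD k] := by
        have e1 : a + c + 1 + i = a + c + i + 1 := by ring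
        have e2 : a + c + 1 + j = a + c + j + 1 := by ring
        rw [e1, e2]
        exact ((Nat.modEq_zero_iff_dvd.2 hi.2).trans (Nat.modEq_zero_iff_dvd.2 hj.2).symm)
      exact Nat.ModEq.eq_of_lt_of_lt (Nat.ModEq.add_left_cancel' _ h2) hi.1 hj.1
    refine le_trans (Finset.card_le_card (t := ((range k).filter fun j =>
      (a + j) / k ≠ (a + c + j) / k) ∪ (range k).filter fun j => k ∣ a + c + j + 1)
      fun j hj => ?_) ((Finset.card_union_le _ _).trans (Nat.add_le_add ih h1))
    rw [mem_filter] at hj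
    rw [mem_union, mem_filter, mem_filter]
    by_cases hd : k ∣ a + c + j + 1
    · exact Or.inr ⟨hj.1, hd⟩
    · refine Or.inl ⟨hj.1, ?_⟩
      have e : a + (c + 1) + j = a + c + j + 1 := by ring
      have h3 := hj.2
      rw [e, Nat.succ_div_of_not_dvd hd] at h3
      exact h3

theorem card_shift' (k a b c : ℕ) (h1 : a ≤ b + c) (h2 : b ≤ a + c) :
    ((range k).filter fun j => (a + j) / k ≠ (b + j) / k).card ≤ c := by
  rcases le_total a b with h | h
  · obtain ⟨x, rfl⟩ := Nat.exists_eq_add_of_le h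
    exact (card_shift k a x).trans (by omega)
  · obtain ⟨x, rfl⟩ := Nat.exists_eq_add_of_le h
    refine le_trans (le_of_eq ?_) ((card_shift k b x).trans (by omega))
    congr 1
    exact Finset.filter_congr fun j _ => ne_comm

theorem small_of {a M x n : ℕ} (h : (a * M + 1) * x ≤ M * n) : a * x ≤ n := by
  rcases Nat.eq_zero_or_pos M with rfl | hM
  · have : x = 0 := by simpa using h
    simp [this]
  · refine Nat.le_of_mul_le_mul_left ?_ hM
    calc M * (a * x) = a * M * x := by ring
      _ ≤ (a * M + 1) * x := Nat.mul_le_mul_right _ (Nat.le_succ _)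
      _ ≤ M * n := h

variable {A : Type}

/-! ### a breadth first tree from the outer boundary -/

/-- level of an edge -/
def lev (K : PC A) (δ : K.V → ℕ) (e : K.E) : ℕ := δ (K.org (e, true)) + δ (K.org (e, false))

theorem lev_eq (K : PC A) (δ : K.V → ℕ) (d : K.E × Bool) :
    lev K δ d.1 = δ (K.org d) + δ (K.org (rv d)) := by
  obtain ⟨e, b⟩ := d
  cases b
  · exact Nat.add_comm _ _
  · rfl

theorem exists_bfs (K : PC A) : ∃ (T : K.STree) (δ : K.V → ℕ),
    (∀ u, K.OutV u → ∀ e, T.Anc u e → e ∈ K.outE) ∧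
    (∀ d, δ (K.org d) ≤ δ (K.org (rv d)) + 1) ∧
    ∀ v e e', T.Anc v e → T.Anc v e' → e ∉ K.outE → e' ∉ K.outE → lev K δ e = lev K δ e' →
      e = e' := by
  classical
  obtain ⟨r0, h0⟩ := exists_root K
  let w : K.E → ℕ := fun e => if e ∈ K.outE then 0 else 1
  let O : K.V → Prop := fun v => v = r0
  have hall : ∀ v, ∃ r k, K.RTToO w O r k v := fun v => by
    obtain ⟨r, hr⟩ := PC.exists_reach (wt := w) v r0
    obtain ⟨k, hk⟩ := PC.RTToO.of_reach (O := O) hr rfl
    exact ⟨r, k, hk⟩
  let W : K.V → ℕ := fun v => Nat.find (hall v)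
  have hW : ∀ v, ∃ k, K.RTToO w O (W v) k v := fun v => Nat.find_spec (hall v)
  have hWm : ∀ v r k, K.RTToO w O r k v → W v ≤ r := fun v r k h => Nat.find_min' (hall v) ⟨k, h⟩
  let L : K.V → ℕ := fun v => Nat.find (hW v)
  have hL : ∀ v, K.RTToO w O (W v) (L v) v := fun v => Nat.find_spec (hW v)
  have hLm : ∀ v k, K.RTToO w O (W v) k v → L v ≤ k := fun v k h => Nat.find_min' (hW v) h
  have hlip : ∀ d, W (K.org d) ≤ W (K.org (rv d)) + w d.1 := fun d =>
    hWm _ _ _ (.step _ _ d (hL (K.org (rv d))))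
  have hpar : ∀ v, v ≠ r0 → ∃ d : K.E × Bool, K.org d = v ∧ W v = W (K.org (rv d)) + w d.1 ∧
      L (K.org (rv d)) < L v := by
    intro v hv
    have h := hL v
    generalize hWv : W v = W0 at h
    generalize hLv : L v = L0 at h
    cases h with
    | here r k v hO => exact absurd hO hv
    | step r k d h =>
      have h1 : W (K.org (rv d)) ≤ r := hWm _ _ _ h
      have h2 := hlip d
      have h3 : W (K.org (rv d)) = r := by omega
      have h4 : L (K.org (rv d)) ≤ k := hLm _ _ (by rw [h3]; exact h)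
      exact ⟨d, rfl, by omega, by omega⟩
  choose g hg1 hg2 hg3 using hpar
  let pd : K.V → Option (K.E × Bool) := fun v => if h : v = r0 then none else some (g v h)
  have hpd : ∀ v d, pd v = some d → ∃ h : v ≠ r0, g v h = d := by
    intro v d hd
    by_cases hv : v = r0
    · simp [pd, hv] at hd
    · simp only [pd, hv, dif_neg, not_false_eq_true, Option.some.injEq] at hd
      exact ⟨hv, hd⟩
  let T : K.STree :=
    { pd := pd
      hgt := L
      root := r0
      rt := fun v => by by_cases hv : v = r0 <;> simp [pd, hv]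
      or := fun v d hd => by
        obtain ⟨h, rfl⟩ := hpd v d hd
        exact hg1 v h
      dec := fun v d hd => by
        obtain ⟨h, rfl⟩ := hpd v d hd
        exact hg3 v h }
  have hstep : ∀ v d, T.pd v = some d → W v = W (K.org (rv d)) + w d.1 := by
    intro v d hd
    obtain ⟨h, rfl⟩ := hpd v d hd
    exact hg2 v h
  have hmono : ∀ u v, Relation.ReflTransGen T.Step u v → W v ≤ W u := by
    intro u v h
    induction h with
    | refl => exact le_rfl
    | tail _ h ih =>
      obtain ⟨d, h1, rfl⟩ := h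
      have := hstep _ d h1
      omega
  have hw1 : ∀ e, e ∉ K.outE → w e = 1 := fun e he => if_neg he
  refine ⟨T, W, ?_, fun d => ?_, ?_⟩
  · intro u hu e he
    have h1 : W u = 0 := by
      have h2 := PC.rt_outV_conn h0 hu
      clear hu he
      induction h2 using Relation.ReflTransGen.head_induction_on with
      | refl => exact Nat.le_zero.1 (hWm _ 0 0 (.here _ _ _ rfl))
      | head h3 _ ih =>
        obtain ⟨d, h4, rfl, rfl⟩ := h3
        have h5 := hlip d
        have h6 : w d.1 = 0 := if_pos h4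
        omega
    obtain ⟨x, d, h2, h3, rfl⟩ := he
    have h4 := hmono _ _ h2
    have h5 := hstep _ _ h3
    by_contra h6
    have := hw1 _ h6
    omega
  · have h1 := hlip d
    have h2 : w d.1 ≤ 1 := by
      show (if _ then 0 else 1) ≤ 1
      split_ifs <;> omega
    omega
  · have key : ∀ x d y d', T.pd x = some d → T.pd y = some d' → d.1 ∉ K.outE → d'.1 ∉ K.outE →
        lev K W d.1 = lev K W d'.1 → Relation.ReflTransGen T.Step x y → d.1 = d'.1 := by
      intro x d y d' h1 h2 h3 h4 h5 h6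
      rcases Relation.ReflTransGen.cases_head h6 with rfl | ⟨z, ⟨d2, h7, rfl⟩, h8⟩
      · rw [h1] at h2
        rw [Option.some.inj h2]
      · rw [h1] at h7
        obtain rfl := Option.some.inj h7
        have a1 := hmono _ _ h8
        have a2 := hstep _ _ h1
        have a3 := hstep _ _ h2
        rw [lev_eq, lev_eq, T.or _ _ h1, T.or _ _ h2] at h5
        rw [hw1 _ h3] at a2
        rw [hw1 _ h4] at a3
        omega
    rintro v e e' ⟨x, d, h1, h2, rfl⟩ ⟨y, d', h3, h4, rfl⟩ h5 h6 h7
    have hu : Relator.RightUnique T.Step := by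
      rintro a b c ⟨d1, hb, rfl⟩ ⟨d2, hc, rfl⟩
      rw [hb] at hc
      rw [Option.some.inj hc]
    rcases Relation.ReflTransGen.total_of_right_unique hu h1 h3 with h | h
    · exact key x d y d' h2 h4 h5 h6 h7 h
    · exact (key y d' x d h4 h2 h6 h5 h7.symm h).symm

/-- levels along a chain -/
theorem chain_lev (K : PC A) {δ : K.V → ℕ} (hδ : ∀ d, δ (K.org d) ≤ δ (K.org (rv d)) + 1) :
    ∀ (l : List (K.E × Bool)) (a : K.E × Bool),
      (a :: l).IsChain (fun a b => K.org b = K.org (rv a)) →
      ∀ d ∈ a :: l, δ (K.org d) ≤ δ (K.org a) + l.length ∧ δ (K.org a) ≤ δ (K.org d) + l.length := by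
  intro l
  induction l with
  | nil =>
    intro a _ d hd
    rw [List.mem_singleton.1 hd]
    simp
  | cons b l ih =>
    intro a h d hd
    rw [List.isChain_cons_cons] at h
    rcases List.mem_cons.1 hd with rfl | hd
    · simp
    · have h1 := ih b h.2 d hd
      have h2 := hδ a
      have h3 := hδ (rv a)
      rw [DR.rv_rv] at h3
      rw [h.1] at h1
      simp only [List.length_cons]
      omega

theorem exists_flev (K : PC A) {δ : K.V → ℕ} (hδ : ∀ d, δ (K.org d) ≤ δ (K.org (rv d)) + 1)
    {m : ℕ} (hm : ∀ f, (K.bd (some f)).length ≤ m) : ∃ lam : K.F → ℕ, ∀ f, ∀ d ∈ K.bd (some f),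
      δ (K.org d) ≤ lam f + m ∧ lam f ≤ δ (K.org d) + m := by
  have : ∀ f : K.F, ∃ x : ℕ, ∀ d ∈ K.bd (some f), δ (K.org d) ≤ x + m ∧ x ≤ δ (K.org d) + m := by
    intro f
    obtain ⟨a, l, h⟩ := List.exists_cons_of_ne_nil (K.ne f)
    refine ⟨δ (K.org a), fun d hd => ?_⟩
    have h1 := K.chain (some f)
    have h2 := hm f
    rw [h] at h1 hd h2
    have := chain_lev K hδ l a h1 d hd
    simp only [List.length_cons] at h2
    omega
  choose lam h using this
  exact ⟨lam, h⟩

/-! ### cotrees -/

theorem cotree_cut {K : PC A} (C : K.Cotree) {m : ℕ} (hm : ∀ f, (K.bd (some f)).length ≤ m)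
    {L : ℕ} (hL : 0 < L) (W : Finset K.F) (h : ∃ f, L ≤ (C.sub f ∩ W).card) :
    ∃ z, L ≤ (C.sub z ∩ W).card ∧ (C.sub z ∩ W).card ≤ (m + 1) * L := by
  classical
  obtain ⟨f, hf⟩ := h
  obtain ⟨z, hz1, hz2⟩ := Finset.exists_max_image
    (univ.filter fun f => L ≤ (C.sub f ∩ W).card) C.rank ⟨f, mem_filter.2 ⟨mem_univ _, hf⟩⟩
  refine ⟨z, (mem_filter.1 hz1).2, ?_⟩
  have hc : ∀ g, (C.sub g ∩ W).card = ∑ x ∈ C.sub g, if x ∈ W then 1 else 0 := by
    intro g
    rw [← Finset.filter_mem_eq_inter, Finset.card_filter]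
  have hs := DR.sum_sub C (fun x => if x ∈ W then 1 else 0) z
  have hkid : (univ.filter fun g => C.par g = some z).card ≤ m := by
    refine le_trans ?_ ((List.toFinset_card_le (K.bd (some z))).trans (hm z))
    refine Finset.card_le_card_of_injOn (fun g => rv (C.dd g)) (fun g hg => ?_) fun g _ g' _ h => ?_
    · have h1 := (mem_filter.1 (Finset.mem_coe.1 hg)).2
      exact Finset.mem_coe.2 (List.mem_toFinset.2 ((DR.par_iff C g _).1 h1))
    · exact DR.dd_inj C (vrv_inj h)
  have hsum : ∑ g ∈ univ.filter (fun g => C.par g = some z), (C.sub g ∩ W).card ≤ m * L := by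
    refine le_trans (Finset.sum_le_card_nsmul _ _ L fun g hg => ?_) ?_
    · by_contra hcon
      have h1 := hz2 g (mem_filter.2 ⟨mem_univ _, by omega⟩)
      have h2 := C.dec g z (mem_filter.1 hg).2
      omega
    · rw [smul_eq_mul]
      exact Nat.mul_le_mul_right _ hkid
  have h1 : (C.sub z ∩ W).card = (if z ∈ W then 1 else 0) +
      ∑ g ∈ univ.filter (fun g => C.par g = some z), (C.sub g ∩ W).card := by
    rw [hc, Finset.sum_congr rfl fun g _ => hc g]
    convert hs
  have h2 : (if z ∈ W then 1 else 0) ≤ 1 := by split_ifs <;> omega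
  have h3 : (m + 1) * L = m * L + L := by ring
  omega

theorem mem_bdry' {K : PC A} {C : Finset K.F} {d : K.E × Bool} {f g : K.F}
    (hf : d ∈ K.bd (some f)) (hg : rv d ∈ K.bd (some g)) :
    d.1 ∈ K.bdry C ↔ ¬ (f ∈ C ↔ g ∈ C) := by
  rw [Bnd.mem_bdry]
  have key : ∀ (x : K.E × Bool) (y : K.F), x ∈ K.bd (some y) →
      ((∃ f ∈ C, x ∈ K.bd (some f)) ↔ y ∈ C) := by
    intro x y hy
    constructor
    · rintro ⟨f, h1, h2⟩
      rw [Option.some.inj (DR.once' hy h2)]
      exact h1
    · exact fun h => ⟨y, h, hy⟩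
  rw [key d f hf, key _ g hg]

theorem not_outE {K : PC A} {d : K.E × Bool} {f g : K.F}
    (hf : d ∈ K.bd (some f)) (hg : rv d ∈ K.bd (some g)) : d.1 ∉ K.outE := by
  intro h
  simp only [PC.outE, List.mem_toFinset, List.mem_map] at h
  obtain ⟨x, hx, he⟩ := h
  rcases VK5.eq_or he with rfl | rfl
  · exact Option.some_ne_none _ (DR.once' hf hx)
  · exact Option.some_ne_none _ (DR.once' hg hx)

open Classical in
/-- darts between two inner faces -/
noncomputable def inn (K : PC A) : Finset (K.E × Bool) :=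
  univ.filter fun d => ∃ f g, d ∈ K.bd (some f) ∧ rv d ∈ K.bd (some g)

theorem card_inn (K : PC A) {m : ℕ} (hm : ∀ f, (K.bd (some f)).length ≤ m) :
    (inn K).card ≤ m * Fintype.card K.F := by
  classical
  have h1 : inn K ⊆ univ.biUnion fun f : K.F => (K.bd (some f)).toFinset := by
    intro d hd
    obtain ⟨f, g, h, -⟩ := (mem_filter.1 hd).2
    exact mem_biUnion.2 ⟨f, mem_univ _, List.mem_toFinset.2 h⟩
  refine (card_le_card h1).trans (Finset.card_biUnion_le.trans ?_)
  refine (Finset.sum_le_card_nsmul _ _ m fun f _ =>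
    (List.toFinset_card_le _).trans (hm f)).trans ?_
  rw [smul_eq_mul, card_univ, mul_comm]

open Classical in
/-- summing the local inequality over the fibres of a map -/
theorem sum_pieces (K : PC A) (w : K.E → Prop) {ι : Type} [Inhabited ι] (c : K.F → ι)
    {K0 D : ℕ} (hc : ∀ f, (univ.filter fun g => c g = c f).card ≤ K0)
    (hloc : ∀ C : Finset K.F, C.card ≤ K0 → C.card ≤ D * ((K.bdry C).filter w).card) :
    Fintype.card K.F ≤ D * (((K.bdry univ).filter w).card +
      (univ.filter fun d : K.E × Bool =>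
        ∃ f g, d ∈ K.bd (some f) ∧ rv d ∈ K.bd (some g) ∧ c f ≠ c g).card) := by
  let Y : Finset (K.E × Bool) := univ.filter fun d => (∃ f, d ∈ K.bd (some f)) ∧
    rv d ∈ K.bd none ∧ w d.1
  let X : Finset (K.E × Bool) := univ.filter fun d : K.E × Bool =>
    ∃ f g, d ∈ K.bd (some f) ∧ rv d ∈ K.bd (some g) ∧ c f ≠ c g
  let φ : K.E × Bool → ι := fun d => (K.fc d).elim default c
  have hφ : ∀ d f, d ∈ K.bd (some f) → φ d = c f := by
    intro d f h
    show (K.fc d).elim default c = _
    rw [K.mem_bd_iff.1 h]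
    rfl
  have hY : Y.card ≤ ((K.bdry univ).filter w).card := by
    refine Finset.card_le_card_of_injOn Prod.fst (fun d hd => ?_) fun d hd d' hd' h => ?_
    · obtain ⟨⟨f, h1⟩, h2, h3⟩ := (mem_filter.1 (Finset.mem_coe.1 hd)).2
      refine Finset.mem_coe.2 (mem_filter.2 ⟨?_, h3⟩)
      rw [Bnd.mem_bdry]
      intro h4
      obtain ⟨g, -, h5⟩ := h4.1 ⟨f, mem_univ _, h1⟩
      exact Option.some_ne_none _ (DR.once' h5 h2)
    · obtain ⟨⟨f, h1⟩, -, -⟩ := (mem_filter.1 (Finset.mem_coe.1 hd)).2
      obtain ⟨-, h2, -⟩ := (mem_filter.1 (Finset.mem_coe.1 hd')).2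
      rcases VK5.eq_or h with h3 | h3
      · exact h3
      · rw [← h3] at h2
        exact absurd (DR.once' h1 h2) (Option.some_ne_none _)
  have h1 : (univ : Finset K.F).card =
      ∑ i ∈ univ.image c, (univ.filter fun g => c g = i).card :=
    Finset.card_eq_sum_card_fiberwise fun f _ => mem_image_of_mem c (mem_univ f)
  have h2 : (Y ∪ X).card = ∑ i ∈ univ.image c, ((Y ∪ X).filter fun d => φ d = i).card := by
    refine Finset.card_eq_sum_card_fiberwise fun d hd => ?_
    have : ∃ f, d ∈ K.bd (some f) := by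
      rcases mem_union.1 (Finset.mem_coe.1 hd) with h | h
      · exact (mem_filter.1 h).2.1
      · obtain ⟨f, g, h3, -⟩ := (mem_filter.1 h).2
        exact ⟨f, h3⟩
    obtain ⟨f, hf⟩ := this
    rw [hφ d f hf]
    exact Finset.mem_coe.2 (mem_image_of_mem c (mem_univ f))
  have h3 : ∀ i ∈ univ.image c, (univ.filter fun g => c g = i).card ≤
      D * ((Y ∪ X).filter fun d => φ d = i).card := by
    intro i hi
    obtain ⟨f0, -, rfl⟩ := mem_image.1 hi
    refine (hloc _ (hc f0)).trans (Nat.mul_le_mul_left _ ?_)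
    refine le_trans (card_le_card fun e he => ?_) (Finset.card_image_le (f := Prod.fst))
    obtain ⟨he1, he2⟩ := mem_filter.1 he
    have key : ∀ d : K.E × Bool, d.1 = e →
        (∃ f ∈ univ.filter fun g => c g = c f0, d ∈ K.bd (some f)) →
        ¬ (∃ f ∈ univ.filter fun g => c g = c f0, rv d ∈ K.bd (some f)) →
        e ∈ ((Y ∪ X).filter fun d => φ d = c f0).image Prod.fst := by
      rintro d rfl ⟨f, h4, h5⟩ h6
      have h7 := (mem_filter.1 h4).2
      refine mem_image.2 ⟨d, mem_filter.2 ⟨?_, (hφ d f h5).trans h7⟩, rfl⟩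
      have h8 := K.fc_mem (rv d)
      cases h9 : K.fc (rv d) with
      | none =>
        rw [h9] at h8
        exact mem_union_left _ (mem_filter.2 ⟨mem_univ _, ⟨f, h5⟩, h8, he2⟩)
      | some g =>
        rw [h9] at h8
        refine mem_union_right _ (mem_filter.2 ⟨mem_univ _, f, g, h5, h8, fun h10 => h6 ?_⟩)
        exact ⟨g, mem_filter.2 ⟨mem_univ _, h10.symm.trans h7⟩, h8⟩
    have h4 := (Bnd.mem_bdry (K := K) (e, true)).1 he1
    by_cases h5 : ∃ f ∈ univ.filter fun g => c g = c f0, (e, true) ∈ K.bd (some f)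
    · exact key (e, true) rfl h5 fun h6 => h4 ⟨fun _ => h6, fun _ => h5⟩
    · refine key (rv (e, true)) rfl ?_ (by rw [DR.rv_rv]; exact h5)
      by_contra h6
      exact h4 ⟨fun h => absurd h h5, fun h => absurd h h6⟩
  calc Fintype.card K.F = ∑ i ∈ univ.image c, (univ.filter fun g => c g = i).card := h1
    _ ≤ ∑ i ∈ univ.image c, D * ((Y ∪ X).filter fun d => φ d = i).card := Finset.sum_le_sum h3
    _ = D * (Y ∪ X).card := by rw [← Finset.mul_sum, ← h2]
    _ ≤ _ := Nat.mul_le_mul_left _ ((card_union_le _ _).trans (Nat.add_le_add_right hY _))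

open Classical in
/-- **local to global** -/
theorem local_global (m D : ℕ) : ∃ K0 : ℕ, ∀ (A : Type) (K : PC A) (w : K.E → Prop),
    (∀ f, (K.bd (some f)).length ≤ m) →
    (∀ C : Finset K.F, C.card ≤ K0 → C.card ≤ D * ((K.bdry C).filter w).card) →
    Fintype.card K.F ≤ 2 * D * ((K.bdry univ).filter w).card := by
  obtain ⟨k, hk⟩ : ∃ k, k = 4 * D * ((2 * m + 1) * m) + 1 := ⟨_, rfl⟩
  obtain ⟨c0, hc0⟩ : ∃ c0, c0 = (1 + 2 * (2 * k + 4 * m + 1)) * 2 := ⟨_, rfl⟩
  obtain ⟨L, hL⟩ : ∃ L, L = 4 * D * c0 + 1 := ⟨_, rfl⟩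
  have hkpos : 0 < k := by omega
  have hLpos : 0 < L := by omega
  refine ⟨(m + 1) * L, fun A K w hm hloc => ?_⟩
  obtain ⟨T, δ, hT1, hδ, hT2⟩ := exists_bfs K
  obtain ⟨C, -, -, hC⟩ := stmtT1 A K T
  obtain ⟨lam, hlam⟩ := exists_flev K hδ hm
  -- the shift
  let lam' : K.E × Bool → ℕ := fun d => (K.fc d).elim 0 lam
  have hlam' : ∀ d f, d ∈ K.bd (some f) → lam' d = lam f := by
    intro d f h
    show (K.fc d).elim 0 lam = _
    rw [K.mem_bd_iff.1 h]
    rfl
  let X1 : ℕ → Finset (K.E × Bool) := fun j =>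
    (inn K).filter fun d => (lam' d + j) / k ≠ (lam' (rv d) + j) / k
  have hX1 : ∑ j ∈ range k, (X1 j).card ≤ (2 * m + 1) * m * Fintype.card K.F := by
    have e : ∑ j ∈ range k, (X1 j).card = ∑ d ∈ inn K,
        ((range k).filter fun j => (lam' d + j) / k ≠ (lam' (rv d) + j) / k).card := by
      simp only [X1, Finset.card_filter]
      exact Finset.sum_comm
    rw [e]
    refine (Finset.sum_le_card_nsmul _ _ (2 * m + 1) fun d hd => ?_).trans ?_
    · obtain ⟨f, g, h1, h2⟩ := (mem_filter.1 hd).2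
      rw [hlam' d f h1, hlam' _ g h2]
      have a1 := hlam f d h1
      have a2 := hlam g _ h2
      have a3 := hδ d
      have a4 := hδ (rv d)
      rw [DR.rv_rv] at a4
      exact card_shift' _ _ _ _ (by omega) (by omega)
    · rw [smul_eq_mul, mul_comm, mul_assoc]
      exact Nat.mul_le_mul_left _ (card_inn K hm)
  obtain ⟨j, -, hj⟩ := Finset.exists_le_of_sum_le (s := range k) (f := fun j => k * (X1 j).card)
    (g := fun _ => (2 * m + 1) * m * Fintype.card K.F) ⟨0, mem_range.2 hkpos⟩ (by
      rw [← Finset.mul_sum, Finset.sum_const, card_range, smul_eq_mul]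
      exact Nat.mul_le_mul_left _ hX1)
  have hx : 4 * D * (X1 j).card ≤ Fintype.card K.F := by
    apply small_of (M := (2 * m + 1) * m)
    rw [← hk]
    exact hj
  -- the cuts
  let band : K.F → ℕ := fun f => (lam f + j) / k
  have hcut : ∀ b : ℕ, ∃ Z : Finset K.F,
      Z.card * L ≤ (univ.filter fun g => band g = b).card ∧ ∀ f,
      ((univ.filter fun g => band g = b).filter fun g => ∀ z, (C.par z = none ∨ z ∈ Z) →
        (f ∈ C.sub z ↔ g ∈ C.sub z)).card ≤ (m + 1) * L := by
    intro b
    have := tree_cut C.sub (fun z => C.par z = none) hLpos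
      (show L ≤ (m + 1) * L from Nat.le_mul_of_pos_left _ (Nat.succ_pos _))
      (fun f => by
        obtain ⟨z, h1, h2⟩ := VK5.desc_exists C f
        exact ⟨z, h1, (DR.mem_sub C).2 h2⟩)
      (fun W h => cotree_cut C hm hLpos W h) (univ.filter fun g => band g = b)
    convert this
  choose Z hZ1 hZ2 using hcut
  let c : K.F → ℕ × Finset K.F := fun f =>
    (band f, univ.filter fun z => (C.par z = none ∨ z ∈ Z (band f)) ∧ f ∈ C.sub z)
  have hc : ∀ f, (univ.filter fun g => c g = c f).card ≤ (m + 1) * L := by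
    intro f
    refine le_trans (card_le_card fun g hg => ?_) (hZ2 (band f) f)
    have h1 := (mem_filter.1 hg).2
    have h2 : band g = band f := congrArg Prod.fst h1
    have h3 := congrArg Prod.snd h1
    refine mem_filter.2 ⟨mem_filter.2 ⟨mem_univ _, h2⟩, fun z hz => ?_⟩
    have h4 := Finset.ext_iff.1 h3 z
    simp only [c, mem_filter, mem_univ, true_and, h2, hz] at h4
    exact h4.symm
  have hmain := sum_pieces K w c (fun f => by convert hc f) hloc
  -- edges of a fundamental cycle in a band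
  let S : ℕ → K.V → Finset K.E := fun b v => univ.filter fun e => T.Anc v e ∧ e ∉ K.outE ∧
    2 * (b * k) ≤ lev K δ e + 2 * j + 2 * m ∧ lev K δ e + 2 * j + 2 * m ≤ 2 * (b * k) + 2 * k + 4 * m
  have hS : ∀ b v, (S b v).card ≤ 2 * k + 4 * m + 1 := by
    intro b v
    have h1 : (Finset.Icc (2 * (b * k)) (2 * (b * k) + 2 * k + 4 * m)).card =
        2 * k + 4 * m + 1 := by
      rw [Nat.card_Icc]
      omega
    rw [← h1]
    refine Finset.card_le_card_of_injOn (fun e => lev K δ e + 2 * j + 2 * m)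
      (fun e he => ?_) fun e he e' he' h => ?_
    · obtain ⟨-, -, h2, h3⟩ := (mem_filter.1 (Finset.mem_coe.1 he)).2
      exact Finset.mem_coe.2 (Finset.mem_Icc.2 ⟨h2, h3⟩)
    · obtain ⟨a1, a2, -⟩ := (mem_filter.1 (Finset.mem_coe.1 he)).2
      obtain ⟨a3, a4, -⟩ := (mem_filter.1 (Finset.mem_coe.1 he')).2
      refine hT2 v e e' a1 a3 a2 a4 ?_
      simp only at h
      omega
  let Ed : ℕ → K.F → Finset (K.E × Bool) := fun b z =>
    (insert (C.dd z).1 (S b (K.org (C.dd z)) ∪ S b (K.org (rv (C.dd z))))) ×ˢ univ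
  have hEd : ∀ b z, (Ed b z).card ≤ c0 := by
    intro b z
    rw [hc0]
    simp only [Ed, card_product, card_univ, Fintype.card_bool]
    refine Nat.mul_le_mul_right _ ((card_insert_le _ _).trans ?_)
    have h1 := card_union_le (S b (K.org (C.dd z))) (S b (K.org (rv (C.dd z))))
    have h2 := hS b (K.org (C.dd z))
    have h3 := hS b (K.org (rv (C.dd z)))
    omega
  let X2 : Finset (K.E × Bool) := (univ.image band).biUnion fun b => (Z b).biUnion fun z => Ed b z
  have hX2 : L * X2.card ≤ c0 * Fintype.card K.F := by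
    have h1 : X2.card ≤ ∑ b ∈ univ.image band, (Z b).card * c0 := by
      refine Finset.card_biUnion_le.trans (Finset.sum_le_sum fun b _ => ?_)
      refine Finset.card_biUnion_le.trans ?_
      exact (Finset.sum_le_card_nsmul _ _ c0 fun z _ => hEd b z).trans (le_of_eq (smul_eq_mul _ _))
    have h2 : (univ : Finset K.F).card =
        ∑ b ∈ univ.image band, (univ.filter fun g => band g = b).card :=
      Finset.card_eq_sum_card_fiberwise fun f _ => mem_image_of_mem band (mem_univ f)
    calc L * X2.card ≤ L * ∑ b ∈ univ.image band, (Z b).card * c0 := Nat.mul_le_mul_left _ h1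
      _ = ∑ b ∈ univ.image band, c0 * ((Z b).card * L) := by
          rw [Finset.mul_sum]
          exact Finset.sum_congr rfl fun b _ => by ring
      _ ≤ ∑ b ∈ univ.image band, c0 * (univ.filter fun g => band g = b).card :=
          Finset.sum_le_sum fun b _ => Nat.mul_le_mul_left _ (hZ1 b)
      _ = c0 * Fintype.card K.F := by rw [← Finset.mul_sum, ← h2, card_univ]
  have hy : 4 * D * X2.card ≤ Fintype.card K.F := by
    apply small_of (M := c0)
    rw [← hL]
    exact hX2
  have hX : (univ.filter fun d : K.E × Bool =>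
      ∃ f g, d ∈ K.bd (some f) ∧ rv d ∈ K.bd (some g) ∧ c f ≠ c g) ⊆ X1 j ∪ X2 := by
    intro d hd
    obtain ⟨f, g, h1, h2, h3⟩ := (mem_filter.1 hd).2
    by_cases hb : band f = band g
    · refine mem_union_right _ ?_
      have h4 : ∃ z, (C.par z = none ∨ z ∈ Z (band f)) ∧ ¬ (f ∈ C.sub z ↔ g ∈ C.sub z) := by
        by_contra hcon
        apply h3
        refine Prod.ext hb ?_
        ext z
        simp only [c, mem_filter, mem_univ, true_and, ← hb]
        refine and_congr_right fun hz => ?_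
        by_contra h5
        exact hcon ⟨z, hz, h5⟩
      obtain ⟨z, hz, h5⟩ := h4
      have h6 := (mem_bdry' h1 h2).2 h5
      have h7 := not_outE h1 h2
      have h8 := hC z _ h6
      have hz' : z ∈ Z (band f) := by
        refine hz.resolve_left fun hz0 => h7 ?_
        have hm' : rv (C.dd z) ∈ K.bd none := by rw [← hz0]; exact C.memr z
        rcases h8 with h | h | h
        · rw [h]
          exact PC.rt_mem_outE (d := rv (C.dd z)) hm'
        · refine hT1 _ ?_ _ h
          have := PC.outV_end hm'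
          rwa [DR.rv_rv] at this
        · exact hT1 _ ⟨_, hm', rfl⟩ _ h
      refine mem_biUnion.2 ⟨band f, mem_image_of_mem band (mem_univ f),
        mem_biUnion.2 ⟨z, hz', mem_product.2 ⟨?_, mem_univ _⟩⟩⟩
      have hlev : 2 * (band f * k) ≤ lev K δ d.1 + 2 * j + 2 * m ∧
          lev K δ d.1 + 2 * j + 2 * m ≤ 2 * (band f * k) + 2 * k + 4 * m := by
        have a1 := hlam f d h1
        have a2 := hlam g _ h2
        have a3 : band f * k ≤ lam f + j := Nat.div_mul_le_self _ _
        have a4 : band g * k ≤ lam g + j := Nat.div_mul_le_self _ _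
        have a5 : lam f + j < band f * k + k := Nat.lt_div_mul_add hkpos
        have a6 : lam g + j < band g * k + k := Nat.lt_div_mul_add hkpos
        rw [← hb] at a4 a6
        rw [lev_eq]
        omega
      rw [mem_insert, mem_union]
      rcases h8 with h | h | h
      · exact Or.inl h
      · exact Or.inr (Or.inl (mem_filter.2 ⟨mem_univ _, h, h7, hlev⟩))
      · exact Or.inr (Or.inr (mem_filter.2 ⟨mem_univ _, h, h7, hlev⟩))
    · refine mem_union_left _ (mem_filter.2 ⟨mem_filter.2 ⟨mem_univ _, f, g, h1, h2⟩, ?_⟩)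
      rw [hlam' d f h1, hlam' _ g h2]
      exact hb
  have hfin := (card_le_card hX).trans (card_union_le _ _)
  have h9 : Fintype.card K.F ≤
      D * (((K.bdry univ).filter w).card + ((X1 j).card + X2.card)) :=
    hmain.trans (Nat.mul_le_mul_left _ (Nat.add_le_add_left
      (le_trans (le_of_eq (by congr)) hfin) _))
  rw [mul_add, mul_add] at h9
  rw [mul_assoc] at hx hy ⊢
  omega

end Vale.Agent.P172V.VK
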