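import Vale.Agent.P172V.VK.Defs
import Vale.Agent.P172V.VK.Sep

/-!
# P172V, parts B1 + B3: proof of `StmtB13` (helper22)
-/

namespace Vale.Agent.P172V.VK

open Finset Vale.Agent.P201.S

/-! ### lists and involutions -/

theorem exists_rep {α β : Type} (f : α → β) : ∀ l : List α, ¬ (l.map f).Nodup →
    ∃ a x b y c, l = a ++ x :: (b ++ y :: c) ∧ f x = f y := by
  intro l
  induction l with
  | nil => intro h; exact absurd List.nodup_nil h
  | cons x l ih =>
    intro h
    by_cases h1 : f x ∈ l.map f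
    · obtain ⟨y, hy, he⟩ := List.mem_map.1 h1
      obtain ⟨b, c, rfl⟩ := List.append_of_mem hy
      exact ⟨[], x, b, y, c, rfl, he.symm⟩
    · obtain ⟨a, x', b, y, c, rfl, he⟩ := ih fun h2 => h (List.nodup_cons.2 ⟨h1, h2⟩)
      exact ⟨x :: a, x', b, y, c, rfl, he⟩

theorem exists_map_eq {α β : Type} [Nonempty β] : ∀ (l : List α) (w : List β), l.Nodup →
    l.length = w.length → ∃ φ : α → β, l.map φ = w := by
  classical
  intro l
  induction l with
  | nil =>
    intro w _ h
    exact ⟨fun _ => Classical.arbitrary β, (List.length_eq_zero_iff.1 h.symm).symm⟩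
  | cons a l ih =>
    intro w hn h
    cases w with
    | nil => simp at h
    | cons b w =>
      rw [List.nodup_cons] at hn
      obtain ⟨φ, hφ⟩ := ih w hn.2 (by simpa using h)
      refine ⟨Function.update φ a b, ?_⟩
      rw [List.map_cons, Function.update_self, ← hφ]
      congr 1
      refine List.map_congr_left fun x hx => Function.update_of_ne ?_ _ _
      rintro rfl
      exact hn.1 hx

theorem exists_inv {α : Type} (R : α → α → Prop) (hs : ∀ x y, R x y → R y x)
    (hf : ∀ x y y', R x y → R x y' → y = y') :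
    ∃ μ : α → α, (∀ x, μ (μ x) = x) ∧ (∀ x, μ x ≠ x → R x (μ x)) ∧ ∀ x y, R x y → μ x = y := by
  classical
  let μ : α → α := fun x => if h : ∃ y, R x y then h.choose else x
  have h1 : ∀ x y, R x y → μ x = y := by
    intro x y h
    have h2 : ∃ y, R x y := ⟨y, h⟩
    show (if h : ∃ y, R x y then h.choose else x) = y
    rw [dif_pos h2]
    exact hf x _ _ h2.choose_spec h
  have h2 : ∀ x, ¬ (∃ y, R x y) → μ x = x := fun x h => dif_neg h
  refine ⟨μ, fun x => ?_, fun x hx => ?_, h1⟩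
  · by_cases h : ∃ y, R x y
    · obtain ⟨y, hy⟩ := h
      rw [h1 x y hy, h1 y x (hs _ _ hy)]
    · rw [h2 x h, h2 x h]
  · by_cases h : ∃ y, R x y
    · obtain ⟨y, hy⟩ := h
      rw [h1 x y hy]
      exact hy
    · exact absurd (h2 x h) hx

variable {A : Type}

theorem exists_pos (K : PC A) {β : Type} [Nonempty β] (W : K.F → List β)
    (hlen : ∀ f, (K.bd (some f)).length = (W f).length) :
    ∃ pos : K.E × Bool → β, ∀ f, (K.bd (some f)).map pos = W f := by
  choose φ hφ using fun f => exists_map_eq _ _ (DR.nodup (K := K) (some f)) (hlen f)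
  refine ⟨fun d => (K.fc d).elim (Classical.arbitrary β) fun f => φ f d, fun f => ?_⟩
  rw [← hφ f]
  refine List.map_congr_left fun d hd => ?_
  rw [K.mem_bd_iff.1 hd]
  rfl

namespace GS

variable (Γ : GS A)

/-- a closed walk in an object -/
structure Tile where
  o : Γ.O
  l : List (Γ.P × Bool)
  cw : Γ.IsCW o l

/-- the word of a tile -/
def twd (t : Γ.Tile) : List (A × Bool) := Γ.word t.o t.l

/-- the measure of a tile -/
def φ (t : Γ.Tile) : ℕ := max 1 (2 * t.l.length - 1)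

/-- the measure of an expression -/
def μ (m : Multiset Γ.Tile) : ℕ := (m.map Γ.φ).sum

/-- simple cycles -/
def Simple (t : Γ.Tile) : Prop :=
  t.l ≠ [] ∧ (t.l.map Γ.po).Nodup ∧ (t.l.map Prod.fst).Nodup

/-- minimal expressions -/
def MinEx (m : Multiset Γ.Tile) (u : FreeGroup A) : Prop :=
  Ex Γ.twd m u ∧ ∀ m', Ex Γ.twd m' u → Γ.μ m ≤ Γ.μ m'

variable {Γ}

theorem μ_add (m n : Multiset Γ.Tile) : Γ.μ (m + n) = Γ.μ m + Γ.μ n := by
  simp [μ]

theorem μ_cons (t : Γ.Tile) (n : Multiset Γ.Tile) : Γ.μ (t ::ₘ n) = Γ.φ t + Γ.μ n := by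
  simp [μ]

theorem μ_zero : Γ.μ 0 = 0 := rfl

theorem φ_pos (t : Γ.Tile) : 0 < Γ.φ t := lt_of_lt_of_le Nat.one_pos (le_max_left _ _)

theorem ex_inv {m : Multiset Γ.Tile} {u : FreeGroup A} (h : Ex Γ.twd m u) :
    ∃ m', Ex Γ.twd m' u⁻¹ := by
  induction h with
  | nil => exact ⟨0, by simpa using Ex.nil⟩
  | cons m u v t _ ih =>
    obtain ⟨m', h⟩ := ih
    obtain ⟨h1, p, h2⟩ := t.cw
    let t' : Γ.Tile := ⟨t.o, FreeGroup.invRev t.l,
      fun x hx => h1 (x.1, !x.2) (mem_invRev hx), p, isWk_invRev h2⟩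
    have e : FreeGroup.mk (Γ.twd t') = (FreeGroup.mk (Γ.twd t))⁻¹ := by
      rw [FreeGroup.inv_mk]
      exact congrArg _ (word_invRev _ _)
    refine ⟨_, (h.mul (Ex.one v t')).cast rfl ?_⟩
    rw [e]
    group

theorem ex_of_mem {u : FreeGroup A} (hu : u ∈ Subgroup.normalClosure Γ.rels) :
    ∃ m, Ex Γ.twd m u := by
  let H : Subgroup (FreeGroup A) :=
    { carrier := {u | ∃ m, Ex Γ.twd m u}
      mul_mem' := by
        rintro a b ⟨m, h⟩ ⟨n, h'⟩
        exact ⟨_, h.mul h'⟩
      one_mem' := ⟨0, Ex.nil⟩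
      inv_mem' := by
        rintro a ⟨m, h⟩
        exact ex_inv h }
  have hN : H.Normal := ⟨by
    rintro a ⟨m, h⟩ g
    exact ⟨m, h.conj g⟩⟩
  have h1 : Γ.rels ⊆ H := by
    rintro a ⟨o, l, h, rfl⟩
    refine ⟨_, (Ex.one 1 (⟨o, l, h⟩ : Γ.Tile)).cast rfl ?_⟩
    rw [one_mul, inv_one, mul_one]
    rfl
  exact Subgroup.normalClosure_le_normal h1 hu

theorem exists_minEx {u : FreeGroup A} (hu : u ∈ Subgroup.normalClosure Γ.rels) :
    ∃ m, Γ.MinEx m u := by
  classical
  have h : ∃ n, ∃ m, Ex Γ.twd m u ∧ Γ.μ m = n := by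
    obtain ⟨m, h⟩ := ex_of_mem hu
    exact ⟨_, m, h, rfl⟩
  obtain ⟨m, h1, h2⟩ := Nat.find_spec h
  refine ⟨m, h1, fun m' h' => ?_⟩
  rw [h2]
  exact Nat.find_min' h ⟨m', h', rfl⟩

theorem MinEx.le {m : Multiset Γ.Tile} {u : FreeGroup A} (h : Γ.MinEx m u) {t : Γ.Tile}
    (ht : t ∈ m) {n : Multiset Γ.Tile} (hn : Ex Γ.twd n (FreeGroup.mk (Γ.twd t))) :
    Γ.φ t ≤ Γ.μ n := by
  obtain ⟨m', rfl⟩ := Multiset.exists_cons_of_mem ht
  have h1 := h.2 _ (h.1.replace hn)
  rw [μ_cons, μ_add] at h1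
  omega

theorem mk_word_append (o : Γ.O) (l m : List (Γ.P × Bool)) :
    FreeGroup.mk (Γ.word o (l ++ m)) = FreeGroup.mk (Γ.word o l) * FreeGroup.mk (Γ.word o m) := by
  rw [word_append, FreeGroup.mul_mk]

theorem mk_word_cons (o : Γ.O) (x : Γ.P × Bool) (m : List (Γ.P × Bool)) :
    FreeGroup.mk (Γ.word o (x :: m)) = FreeGroup.mk (Γ.word o [x]) * FreeGroup.mk (Γ.word o m) :=
  mk_word_append o [x] m

theorem MinEx.simple {m : Multiset Γ.Tile} {u : FreeGroup A} (h : Γ.MinEx m u) {t : Γ.Tile}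
    (ht : t ∈ m) : Γ.Simple t := by
  obtain ⟨hok, v, hw⟩ := t.cw
  have hrep : ∀ a x b y c, t.l = a ++ x :: (b ++ y :: c) → Γ.po x ≠ Γ.po y := by
    intro a x b y c e hp
    rw [e, isWk_append] at hw
    obtain ⟨p, h1, h2⟩ := hw
    have h2' : Γ.IsWk p ((x :: b) ++ y :: c) v := h2
    rw [isWk_append] at h2'
    obtain ⟨q, h3, h4⟩ := h2'
    have hpq : q = p := by rw [← h3.1, ← h4.1, hp]
    subst hpq
    let t1 : Γ.Tile := ⟨t.o, x :: b, fun z hz => hok z (by
      rw [e]
      simp only [List.mem_append, List.mem_cons] at hz ⊢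
      tauto), q, h3⟩
    let t2 : Γ.Tile := ⟨t.o, a ++ y :: c, fun z hz => hok z (by
      rw [e]
      simp only [List.mem_append, List.mem_cons] at hz ⊢
      tauto), v, isWk_append.2 ⟨q, h1, h4⟩⟩
    have h5 : Ex Γ.twd ({t1} + {t2}) (FreeGroup.mk (Γ.twd t)) := by
      refine ((Ex.one (FreeGroup.mk (Γ.word t.o a)) t1).mul (Ex.one 1 t2)).cast rfl ?_
      have e2 : t.l = a ++ ((x :: b) ++ y :: c) := e
      unfold twd
      rw [e2]
      simp only [t1, t2, mk_word_append]
      group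
    have h6 := h.le ht h5
    rw [μ_add] at h6
    have e1 : Γ.μ {t1} = max 1 (2 * (b.length + 1) - 1) := by simp [μ, φ, t1]
    have e2 : Γ.μ {t2} = max 1 (2 * (a.length + (c.length + 1)) - 1) := by simp [μ, φ, t2]
    have e3 : Γ.φ t = max 1 (2 * (a.length + (b.length + (c.length + 1) + 1)) - 1) := by
      simp [φ, e]
    omega
  refine ⟨fun h0 => ?_, ?_, ?_⟩
  · have h1 : Ex Γ.twd 0 (FreeGroup.mk (Γ.twd t)) := by
      refine Ex.nil.cast rfl ?_
      unfold twd
      rw [h0]
      rfl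
    have h2 := h.le ht h1
    have h3 := φ_pos t
    rw [μ_zero] at h2
    omega
  · by_contra hn
    obtain ⟨a, x, b, y, c, e, hp⟩ := exists_rep _ _ hn
    exact hrep a x b y c e hp
  · by_contra hn
    obtain ⟨a, x, b, y, c, e, hp⟩ := exists_rep _ _ hn
    rcases VK5.eq_or hp.symm with rfl | rfl
    · exact hrep a y b y c e rfl
    · rw [e, isWk_append] at hw
      obtain ⟨p, h1, h2, h3⟩ := hw
      rw [isWk_append] at h3
      obtain ⟨q, h4, h5, h6⟩ := h3
      have h5' : Γ.po (x.1, !x.2) = q := h5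
      have h6' : Γ.IsWk (Γ.po (x.1, !!x.2)) c v := h6
      rw [Bool.not_not] at h6'
      rw [h5'] at h4
      have h7 : Γ.po (x.1, x.2) = p := h2
      rw [h7] at h6'
      let t1 : Γ.Tile := ⟨t.o, b, fun z hz => hok z (by
        rw [e]
        simp only [List.mem_append, List.mem_cons] at hz ⊢
        tauto), q, h4⟩
      let t2 : Γ.Tile := ⟨t.o, a ++ c, fun z hz => hok z (by
        rw [e]
        simp only [List.mem_append, List.mem_cons] at hz ⊢
        tauto), v, isWk_append.2 ⟨p, h1, h6'⟩⟩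
      have h8 : Ex Γ.twd ({t1} + {t2}) (FreeGroup.mk (Γ.twd t)) := by
        refine ((Ex.one (FreeGroup.mk (Γ.word t.o a) * FreeGroup.mk (Γ.word t.o [x])) t1).mul
          (Ex.one 1 t2)).cast rfl ?_
        have e3 : FreeGroup.mk (Γ.word t.o [rv x]) = (FreeGroup.mk (Γ.word t.o [x]))⁻¹ := by
          rw [FreeGroup.inv_mk]
          rfl
        unfold twd
        rw [e, mk_word_append t.o a (x :: (b ++ rv x :: c)),
          mk_word_cons t.o x (b ++ rv x :: c), mk_word_append t.o b (rv x :: c),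
          mk_word_cons t.o (rv x) c, e3]
        simp only [t1, t2, mk_word_append]
        group
      have h9 := h.le ht h8
      rw [μ_add] at h9
      have e1 : Γ.μ {t1} = max 1 (2 * b.length - 1) := by simp [μ, φ, t1]
      have e2 : Γ.μ {t2} = max 1 (2 * (a.length + c.length) - 1) := by simp [μ, φ, t2]
      have e3 : Γ.φ t = max 1 (2 * (a.length + (b.length + (c.length + 1) + 1)) - 1) := by
        simp [φ, e]
      omega

theorem MinEx.no_omit {m : Multiset Γ.Tile} {u : FreeGroup A} (h : Γ.MinEx m u)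
    (m1 m2 : Multiset Γ.Tile) (h1 : m1 ≠ 0) (h2 : m = m1 + m2) : ¬ Ex Γ.twd m2 u := by
  intro h3
  have h4 := h.2 _ h3
  obtain ⟨t, ht⟩ := Multiset.exists_mem_of_ne_zero h1
  obtain ⟨m', rfl⟩ := Multiset.exists_cons_of_mem ht
  rw [h2, μ_add, μ_cons] at h4
  have := φ_pos t
  omega

theorem wk_count {u w : Γ.Vx} {l : List (Γ.P × Bool)} (h : Γ.IsWk u l w) (v : Γ.Vx) :
    (l.map fun x => if Γ.po x = v then 1 else 0).sum + (if w = v then 1 else 0) =
      (l.map fun x => if Γ.po (x.1, !x.2) = v then 1 else 0).sum + (if u = v then 1 else 0) := by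
  induction l generalizing u with
  | nil =>
    have : u = w := h
    rw [this]
    rfl
  | cons x l ih =>
    obtain ⟨h1, h2⟩ := h
    have := ih h2
    simp only [List.map_cons, List.sum_cons, h1]
    omega

theorem Simple.cyc {t : Γ.Tile} (h : Γ.Simple t) : Γ.Cyc t.o (t.l.map Prod.fst).toFinset := by
  obtain ⟨h0, h1, h2⟩ := h
  obtain ⟨hok, u, hw⟩ := t.cw
  refine ⟨?_, fun p hp => ?_, fun v => ?_⟩
  · obtain ⟨x, l, e⟩ := List.exists_cons_of_ne_nil h0
    exact ⟨x.1, by rw [e]; simp⟩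
  · obtain ⟨x, hx, rfl⟩ := List.mem_map.1 (List.mem_toFinset.1 hp)
    exact hok x hx
  · have e1 : Γ.deg (t.l.map Prod.fst).toFinset v =
        (t.l.map fun x => if Γ.po x = v then 1 else 0).sum +
        (t.l.map fun x => if Γ.po (x.1, !x.2) = v then 1 else 0).sum := by
      unfold deg
      rw [Finset.card_filter, Finset.card_filter, ← Finset.sum_add_distrib, List.sum_toFinset _ h2,
        List.map_map, ← List.sum_map_add]
      congr 1
      refine List.map_congr_left fun x _ => ?_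
      obtain ⟨p, b⟩ := x
      cases b
      · exact Nat.add_comm _ _
      · rfl
    have e2 := wk_count hw v
    have e3 : ∀ l : List (Γ.P × Bool), (l.map fun x => if Γ.po x = v then 1 else 0).sum =
        (l.map Γ.po).count v := by
      intro l
      induction l with
      | nil => rfl
      | cons x l ih =>
        rw [List.map_cons, List.sum_cons, ih, List.map_cons, List.count_cons]
        by_cases hx : Γ.po x = v <;> simp [hx, Nat.add_comm]
    have e4 := List.nodup_iff_count_le_one.1 h1 v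
    rw [← e3] at e4
    omega

theorem Simple.length_le {t : Γ.Tile} (h : Γ.Simple t) : t.l.length ≤ Fintype.card Γ.P := by
  have := h.2.2.length_le_card
  rwa [List.length_map] at this

section diagram

variable {m : Multiset Γ.Tile} {u : FreeGroup A} (h : Γ.MinEx m u) (K : TK Γ.twd)
  (hm : K.ms univ = m) (hu : (FreeGroup.mk (K.toPC.wd none))⁻¹ = u)
  {pos : K.E × Bool → Γ.P × Bool} (hpos : ∀ f, (K.bd (some f)).map pos = (K.q f).l)

include hpos in
theorem lab_pos {f : K.F} {d : K.E × Bool} (hd : d ∈ K.bd (some f)) :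
    (K.lab d.1, d.2) = (Γ.lab (K.q f).o (pos d).1, (pos d).2) := by
  have h1 := K.sq f
  unfold twd word at h1
  rw [← hpos f, List.map_map] at h1
  exact List.map_inj_left.1 h1 d hd

include h hm in
theorem simple_q (f : K.F) : Γ.Simple (K.q f) := by
  refine h.simple ?_
  rw [← hm]
  unfold TK.ms
  exact Multiset.mem_sum.2 ⟨f, mem_univ _, Multiset.mem_singleton_self _⟩

include h hm hpos in
theorem pos_inj {f : K.F} {d d' : K.E × Bool} (hd : d ∈ K.bd (some f)) (hd' : d' ∈ K.bd (some f))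
    (e : (pos d).1 = (pos d').1) : d = d' := by
  have h1 := (simple_q h K hm f).2.2
  rw [← hpos f, List.map_map] at h1
  exact List.inj_on_of_nodup_map h1 hd hd' e

include h hm hu hpos in
/-- no edge has the same object and the same position on both sides -/
theorem no_mirror {f g : K.F} {d : K.E × Bool} (hd : d ∈ K.bd (some g))
    (hr : rv d ∈ K.bd (some f)) (ho : (K.q g).o = (K.q f).o) (hp : (pos d).1 = (pos (rv d)).1) :
    False := by
  by_cases hfg : f = g
  · subst hfg
    exact vrv_ne d (pos_inj h K hm hpos hd hr hp).symm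
  obtain ⟨l1, l2, hf⟩ := List.append_of_mem hr
  obtain ⟨m1, m2, hg⟩ := List.append_of_mem hd
  obtain ⟨okf, v, wf⟩ := (K.q f).cw
  obtain ⟨okg, v', wg⟩ := (K.q g).cw
  have lf := hpos f
  have lg := hpos g
  rw [hf, List.map_append, List.map_cons] at lf
  rw [hg, List.map_append, List.map_cons] at lg
  have s1 : (pos d).2 = d.2 := (congrArg Prod.snd (lab_pos K hpos hd)).symm
  have s2 : (pos (rv d)).2 = !d.2 := (congrArg Prod.snd (lab_pos K hpos hr)).symm
  have e1 : pos (rv d) = ((pos d).1, !(pos d).2) := Prod.ext hp.symm (by rw [s1]; exact s2)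
  rw [← lf, isWk_append] at wf
  rw [← lg, isWk_append] at wg
  obtain ⟨p, a1, a2, a3⟩ := wf
  obtain ⟨q, b1, b2, b3⟩ := wg
  rw [e1] at a2 a3
  have a3' : Γ.IsWk (Γ.po ((pos d).1, !!(pos d).2)) (l2.map pos) v := a3
  rw [Bool.not_not] at a3'
  have b2' : Γ.po ((pos d).1, (pos d).2) = q := b2
  rw [b2'] at a3'
  rw [a2] at b3
  have memf : ∀ x, x ∈ l1 ∨ x ∈ l2 → x ∈ K.bd (some f) := by
    intro x hx
    rw [hf]
    simp only [List.mem_append, List.mem_cons]
    tauto
  have memg : ∀ x, x ∈ m1 ∨ x ∈ m2 → x ∈ K.bd (some g) := by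
    intro x hx
    rw [hg]
    simp only [List.mem_append, List.mem_cons]
    tauto
  have mem : ∀ x ∈ l1 ++ ((m2 ++ m1) ++ l2), x ∈ K.bd (some f) ∨ x ∈ K.bd (some g) := by
    intro x hx
    simp only [List.mem_append] at hx
    rcases hx with hx | (hx | hx) | hx
    · exact Or.inl (memf x (Or.inl hx))
    · exact Or.inr (memg x (Or.inr hx))
    · exact Or.inr (memg x (Or.inl hx))
    · exact Or.inl (memf x (Or.inr hx))
  let t : Γ.Tile := ⟨(K.q f).o, (l1 ++ ((m2 ++ m1) ++ l2)).map pos, by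
    refine ⟨fun y hy => ?_, v, ?_⟩
    · obtain ⟨x, hx, rfl⟩ := List.mem_map.1 hy
      rcases mem x hx with h1 | h1
      · exact okf _ (by rw [← hpos f]; exact List.mem_map_of_mem h1)
      · rw [← ho]
        exact okg _ (by rw [← hpos g]; exact List.mem_map_of_mem h1)
    · simp only [List.map_append]
      exact isWk_append.2 ⟨p, a1, isWk_append.2 ⟨q, isWk_append.2 ⟨v', b3, b1⟩, a3'⟩⟩⟩
  obtain ⟨n, h1, h2⟩ := K.merge hfg hf hg t (by
    show _ = Γ.word (K.q f).o ((l1 ++ ((m2 ++ m1) ++ l2)).map pos)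
    unfold word
    rw [List.map_map]
    refine List.map_congr_left fun x hx => ?_
    rcases mem x hx with h1 | h1
    · exact lab_pos K hpos h1
    · rw [← ho]
      exact lab_pos K hpos h1)
  rw [hu] at h2
  have h3 := h.2 _ h2
  rw [← hm, h1, μ_cons, μ_cons, μ_cons] at h3
  have c1 : Γ.φ (K.q f) = max 1 (2 * (l1.length + (l2.length + 1)) - 1) := by
    unfold φ
    rw [← lf]
    simp
  have c2 : Γ.φ (K.q g) = max 1 (2 * (m1.length + (m2.length + 1)) - 1) := by
    unfold φ
    rw [← lg]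
    simp
  have c3 : Γ.φ t = max 1 (2 * (l1.length + (m2.length + (m1.length + l2.length))) - 1) := by
    simp [φ, t]
  omega

open Classical in
include h hm hu hpos in
/-- the local inequality in the diagram -/
theorem loc_diagram {sp : A → Prop} {K0 D : ℕ} (hL : Γ.Loc sp K0 D) (C : Finset K.F)
    (hC : C.card ≤ K0) :
    C.card ≤ D * ((K.toPC.bdry C).filter fun e => ¬ sp (K.lab e)).card := by
  let F := {f : K.F // f ∈ C}
  let R : F × Γ.P → F × Γ.P → Prop := fun x y => ∃ d, d ∈ K.bd (some x.1.1) ∧ (pos d).1 = x.2 ∧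
    rv d ∈ K.bd (some y.1.1) ∧ (pos (rv d)).1 = y.2
  obtain ⟨ν, n1, n2, n3⟩ := exists_inv R (by
      rintro x y ⟨d, h1, h2, h3, h4⟩
      exact ⟨rv d, h3, h4, by rw [DR.rv_rv]; exact h1, by rw [DR.rv_rv]; exact h2⟩) (by
      rintro x y y' ⟨d, h1, h2, h3, h4⟩ ⟨d', h5, h6, h7, h8⟩
      obtain rfl := pos_inj h K hm hpos h1 h5 (h2.trans h6.symm)
      exact Prod.ext (Subtype.ext (Option.some.inj (DR.once' h3 h7))) (h4.symm.trans h8))
  have hZ : ∀ (f : K.F) (p : Γ.P), p ∈ ((K.q f).l.map Prod.fst).toFinset ↔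
      ∃ d ∈ K.bd (some f), (pos d).1 = p := by
    intro f p
    rw [← hpos f, List.map_map, List.mem_toFinset, List.mem_map]
    rfl
  have hcard : Fintype.card F = C.card := Fintype.card_coe C
  have h1 := hL F (fun f => (K.q f.1).o) (fun f => ((K.q f.1).l.map Prod.fst).toFinset) ν
    (fun f => (simple_q h K hm f.1).cyc) n1 (fun x hx => by
      obtain ⟨d, h1, h2, h3, h4⟩ := n2 x hx
      refine ⟨(hZ _ _).2 ⟨d, h1, h2⟩, ?_, fun he => ?_⟩
      · have a1 := congrArg Prod.fst (lab_pos K hpos h1)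
        have a2 := congrArg Prod.fst (lab_pos K hpos h3)
        rw [← h2, ← h4]
        exact a1.symm.trans a2
      · exact no_mirror h K hm hu hpos h1 h3 (congrArg Prod.fst he)
          (h2.trans ((congrArg Prod.snd he).trans h4.symm))) (hcard.le.trans hC)
  rw [hcard] at h1
  refine h1.trans (Nat.mul_le_mul_left _ ?_)
  refine Finset.card_le_card_of_forall_subsingleton (fun x e => ∃ d : K.E × Bool, d.1 = e ∧
    d ∈ K.bd (some x.1.1) ∧ (pos d).1 = x.2 ∧ ∀ g ∈ C, rv d ∉ K.bd (some g)) ?_ ?_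
  · intro x hx
    obtain ⟨h2, h3, h4⟩ := (mem_filter.1 hx).2
    obtain ⟨d, h5, h6⟩ := (hZ _ _).1 h2
    have h7 : ∀ g ∈ C, rv d ∉ K.bd (some g) := by
      intro g hg h7
      have h8 := n3 x (⟨g, hg⟩, (pos (rv d)).1) ⟨d, h5, h6, h7, rfl⟩
      rw [h3] at h8
      have h9 : x.1.1 = g := congrArg (fun y : F × Γ.P => y.1.1) h8
      have h10 : x.2 = (pos (rv d)).1 := congrArg Prod.snd h8
      rw [← h9] at h7
      exact vrv_ne d (pos_inj h K hm hpos h5 h7 (h6.trans h10)).symm
    refine ⟨d.1, mem_filter.2 ⟨?_, ?_⟩, d, rfl, h5, h6, h7⟩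
    · rw [Bnd.mem_bdry]
      intro h8
      obtain ⟨g, h9, h10⟩ := h8.1 ⟨_, x.1.2, h5⟩
      exact h7 g h9 h10
    · have a1 : K.lab d.1 = Γ.lab (K.q x.1.1).o (pos d).1 :=
        congrArg Prod.fst (lab_pos K hpos h5)
      rw [a1, h6]
      exact h4
  · rintro e - x ⟨-, d, h2, h3, h4, h5⟩ y ⟨-, d', h6, h7, h8, h9⟩
    rcases VK5.eq_or (h2.trans h6.symm) with rfl | rfl
    · exact Prod.ext (Subtype.ext (Option.some.inj (DR.once' h3 h7))) (h4.symm.trans h8)
    · exact absurd h3 (h9 _ x.1.2)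

end diagram

/-- the short relators -/
def srels (Γ : GS A) : Set (FreeGroup A) :=
  {u | ∃ t : Γ.Tile, t.l.length ≤ Fintype.card Γ.P ∧ u = FreeGroup.mk (Γ.twd t)}

theorem area_of_ex {m : Multiset Γ.Tile} {u : FreeGroup A} (h : Ex Γ.twd m u)
    (hs : ∀ t ∈ m, Γ.Simple t) : P186.Hy.Area Γ.srels m.card u := by
  induction h with
  | nil => exact P186.Hy.Area.nil
  | cons m u v t _ ih =>
    rw [Multiset.card_cons]
    exact P186.Hy.Area.cons _ _ _ _
      (Or.inl ⟨t, (hs t (Multiset.mem_cons_self _ _)).length_le, rfl⟩)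
      (ih fun s h => hs s (Multiset.mem_cons_of_mem h))

end GS

open Classical in
theorem bdry_univ_le (K : PC A) (sp : A → Prop) :
    ((K.bdry univ).filter fun e => ¬ sp (K.lab e)).card ≤
      (K.wd none).countP fun x => ¬ sp x.1 := by
  have h1 : ((K.bdry univ).filter fun e => ¬ sp (K.lab e)) ⊆
      (((K.bd none).filter fun d => ¬ sp (K.lab d.1)).map Prod.fst).toFinset := by
    intro e he
    obtain ⟨h1, h2⟩ := mem_filter.1 he
    have key : ∀ d : K.E × Bool, d.1 = e → ¬ (∃ f ∈ (univ : Finset K.F), d ∈ K.bd (some f)) →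
        e ∈ (((K.bd none).filter fun d => ¬ sp (K.lab d.1)).map Prod.fst).toFinset := by
      rintro d rfl h3
      refine List.mem_toFinset.2 (List.mem_map.2 ⟨d, List.mem_filter.2 ⟨?_, by simpa using h2⟩, rfl⟩)
      have h4 := K.fc_mem d
      cases h5 : K.fc d with
      | none => rwa [h5] at h4
      | some f =>
        rw [h5] at h4
        exact absurd ⟨f, mem_univ _, h4⟩ h3
    have h3 := (Bnd.mem_bdry (K := K) (e, true)).1 h1
    by_cases h4 : ∃ f ∈ (univ : Finset K.F), (e, true) ∈ K.bd (some f)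
    · exact key (rv (e, true)) rfl fun h5 => h3 ⟨fun _ => h5, fun _ => h4⟩
    · exact key (e, true) rfl h4
  refine (card_le_card h1).trans ((List.toFinset_card_le _).trans (le_of_eq ?_))
  unfold PC.wd
  rw [List.length_map, List.countP_map, List.countP_eq_length_filter]
  rfl

open Classical in
/-- the weighted linear isoperimetric inequality -/
theorem core (m D : ℕ) : ∃ K0 : ℕ, ∀ (A : Type) (Γ : GS A) (sp : A → Prop),
    Fintype.card Γ.P ≤ m → Γ.Loc sp K0 D → ∀ u ∈ Subgroup.normalClosure Γ.rels,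
      ∃ k, k ≤ 2 * D * ((u⁻¹).toWord.countP fun x => ¬ sp x.1) ∧ P186.Hy.Area Γ.srels k u := by
  obtain ⟨K0, hK0⟩ := local_global m D
  refine ⟨K0, fun A Γ sp hP hL u hu => ?_⟩
  obtain ⟨n, hn⟩ := GS.exists_minEx hu
  have hne : ∀ t ∈ n, Γ.twd t ≠ [] := fun t ht h0 =>
    (hn.simple ht).1 (List.map_eq_nil_iff.1 h0)
  obtain ⟨K, hw, hm⟩ := hn.1.real_reduced hne hn.no_omit
  refine ⟨_, ?_, GS.area_of_ex hn.1 fun t ht => hn.simple ht⟩
  have hcard : n.card = Fintype.card K.F := by
    rw [← hm]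
    unfold TK.ms
    rw [Multiset.card_sum]
    simp
  rw [hcard]
  rcases isEmpty_or_nonempty K.F with hF | ⟨⟨f0⟩⟩
  · simp
  have hu' : (FreeGroup.mk (K.toPC.wd none))⁻¹ = u := by
    rw [hw, FreeGroup.mk_toWord, inv_inv]
  have hlen : ∀ f, (K.bd (some f)).length = (K.q f).l.length := by
    intro f
    have := congrArg List.length (K.sq f)
    unfold GS.twd GS.word at this
    rwa [List.length_map, List.length_map] at this
  have : Nonempty (Γ.P × Bool) := by
    obtain ⟨x, l, -⟩ := List.exists_cons_of_ne_nil (GS.simple_q hn K hm f0).1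
    exact ⟨x⟩
  obtain ⟨pos, hpos⟩ := exists_pos K.toPC (fun f => (K.q f).l) hlen
  have h1 := hK0 A K.toPC (fun e => ¬ sp (K.lab e))
    (fun f => (hlen f).le.trans ((GS.simple_q hn K hm f).length_le.trans hP))
    (fun C hC => by convert GS.loc_diagram hn K hm hu' hpos hL C hC)
  refine h1.trans (Nat.mul_le_mul_left _ ?_)
  rw [← hw]
  convert bdry_univ_le K.toPC sp

/-- **B1 + B3** -/
theorem stmtB13 : StmtB13 := by
  classical
  intro m D
  obtain ⟨K0, hK0⟩ := core m D
  refine ⟨K0, fun A _ Γ sp hP hL => ⟨?_, fun a b ha hb hab hfin => ?_⟩⟩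
  · refine P186.Hy.isHyperbolic_of_linear (PresentedGroup.mk Γ.rels)
      (PresentedGroup.mk_surjective _) Γ.srels (Fintype.card Γ.P) (2 * D) ?_ ?_ ?_
    · rintro u ⟨t, -, rfl⟩
      exact GS.cw_one t.cw
    · rintro u ⟨t, h, rfl⟩
      refine FreeGroup.norm_mk_le.trans ?_
      unfold GS.twd GS.word
      rwa [List.length_map]
    · intro u hu
      obtain ⟨k, h1, h2⟩ := hK0 A Γ sp hP hL u (PresentedGroup.mk_eq_one_iff.1 hu)
      refine ⟨k, h1.trans (Nat.mul_le_mul_left _ ?_), h2⟩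
      rw [← FreeGroup.norm_inv_eq]
      exact List.countP_le_length
  · obtain ⟨n, hn, h1⟩ := isOfFinOrder_iff_pow_eq_one.1 hfin
    have h2 : PresentedGroup.mk Γ.rels ((FreeGroup.of a * (FreeGroup.of b)⁻¹) ^ n) = 1 := by
      rw [map_pow, map_mul, map_inv]
      exact h1
    obtain ⟨k, h3, h4⟩ := hK0 A Γ sp hP hL _ (PresentedGroup.mk_eq_one_iff.1 h2)
    have h5 : ∀ n : ℕ, ∃ w : List (A × Bool),
        FreeGroup.mk w = ((FreeGroup.of a * (FreeGroup.of b)⁻¹) ^ n)⁻¹ ∧ ∀ x ∈ w, sp x.1 := by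
      intro n
      induction n with
      | zero => exact ⟨[], by simp [FreeGroup.one_eq_mk], by simp⟩
      | succ n ih =>
        obtain ⟨w, e, hw⟩ := ih
        refine ⟨[(b, true)] ++ ([(a, false)] ++ w), ?_, ?_⟩
        · rw [← FreeGroup.mul_mk, ← FreeGroup.mul_mk, e, pow_succ]
          have e1 : FreeGroup.mk [(b, true)] = FreeGroup.of b := rfl
          have e2 : FreeGroup.mk [(a, false)] = (FreeGroup.of a)⁻¹ := rfl
          rw [e1, e2]
          group
        · intro x hx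
          simp only [List.mem_append, List.mem_singleton] at hx
          rcases hx with rfl | rfl | hx
          · exact hb
          · exact ha
          · exact hw x hx
    obtain ⟨w, e, hw⟩ := h5 n
    have h6 : (((FreeGroup.of a * (FreeGroup.of b)⁻¹) ^ n)⁻¹.toWord.countP
        fun x => ¬ sp x.1) = 0 := by
      rw [List.countP_eq_zero]
      intro x hx
      rw [← e, FreeGroup.toWord_mk] at hx
      have := hw x ((FreeGroup.Red.sublist FreeGroup.reduce.red).subset hx)
      simpa using this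
    have h7 : k = 0 := by
      have h8 := h3.trans (le_of_eq (congrArg _ h6))
      omega
    subst h7
    have h8 : (FreeGroup.of a * (FreeGroup.of b)⁻¹) ^ n = 1 := by
      generalize (FreeGroup.of a * (FreeGroup.of b)⁻¹) ^ n = u at h4
      cases h4
      rfl
    have h9 := congrArg (FreeGroup.lift fun x : A =>
      if x = a then Multiplicative.ofAdd (1 : ℤ) else 1) h8
    simp [hab.symm, ← ofAdd_nsmul] at h9
    omega

end Vale.Agent.P172V.VK
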